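import Crest.Agent.R054.Basic

/-! Row 54: balls outside a set `X`. -/

set_option autoImplicit false

namespace Crest.Agent.R054

open Finset

variable {V : Type*} [Fintype V] [DecidableEq V] {G : SimpleGraph V} {k : ℕ} {X : Finset V}
  {z z' : V}

theorem ob_notMem {i : ℕ} {v : V} (h : v ∈ ob G X z i) : v ∉ X := by
  cases i with
  | zero => simp [ob] at h
  | succ i => exact (mem_sdiff.1 h).2

theorem ob_mono {i j : ℕ} (h : i ≤ j) : ob G X z i ⊆ ob G X z j := by
  refine monotone_nat_of_le_succ (f := ob G X z) (fun n v hv => ?_) h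
  exact mem_sdiff.2 ⟨mem_nb.2 (Or.inl (mem_insert_of_mem hv)), ob_notMem hv⟩

theorem mem_ob_one (hz : z ∈ X) {v : V} : v ∈ ob G X z 1 ↔ v ∉ X ∧ G.Adj z v := by
  simp only [ob, mem_sdiff, mem_nb, insert_empty_eq, mem_singleton, exists_eq_left]
  constructor
  · rintro ⟨rfl | h, h'⟩
    · exact absurd hz h'
    · exact ⟨h', h⟩
  · exact fun h => ⟨Or.inr h.2, h.1⟩

omit [Fintype V] in
/-- A walk with a nonempty interior outside `X` can be shortened to a path with a nonempty
interior (strong induction on the length: cut between two equal entries). -/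
theorem conn_of_walk {x y : V} {R : List V} (hne : R ≠ []) (hR : ∀ v ∈ R, v ∉ X)
    (h : List.IsChain G.Adj (x :: (R ++ [y]))) : ∃ l, 1 ≤ l ∧ l ≤ R.length ∧ Conn G X x y l := by
  have key : ∀ (R : List V) (x : V), R ≠ [] → List.IsChain G.Adj (x :: (R ++ [y])) →
      ∃ R' : List V, R' ≠ [] ∧ R'.Sublist R ∧ R'.Nodup ∧ List.IsChain G.Adj (x :: (R' ++ [y])) := by
    intro R
    induction R with
    | nil => exact fun _ h => absurd rfl h
    | cons a R ih =>
      intro x _ h
      by_cases hR : R = []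
      · subst hR
        exact ⟨[a], by simp, List.Sublist.refl _, by simp, h⟩
      · rw [List.cons_append, List.isChain_cons_cons] at h
        obtain ⟨R', -, h2, h3, h4⟩ := ih a hR h.2
        by_cases ha : a ∈ R'
        · obtain ⟨s, t, rfl⟩ := List.append_of_mem ha
          refine ⟨a :: t, by simp, ((List.sublist_append_right s _).trans h2).cons a,
            h3.sublist (List.sublist_append_right s _), ?_⟩
          rw [List.append_assoc, List.cons_append, ← List.cons_append, List.isChain_split] at h4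
          exact List.isChain_cons_cons.2 ⟨h.1, h4.2⟩
        · exact ⟨a :: R', by simp, h2.cons_cons a, List.nodup_cons.2 ⟨ha, h3⟩,
            List.isChain_cons_cons.2 ⟨h.1, h4⟩⟩
  obtain ⟨R', h1, h2, h3, h4⟩ := key R x hne h
  exact ⟨R'.length, List.length_pos_iff.2 h1, h2.length_le, R', rfl, h3,
    fun v hv => hR v (h2.subset hv), h4⟩

theorem ball_walk (hz : z ∈ X) {i : ℕ} {v : V} (hv : v ∈ ob G X z i) :
    ∃ R : List V, R.length + 1 ≤ i ∧ (∀ u ∈ R, u ∉ X) ∧ List.IsChain G.Adj (z :: (R ++ [v])) := by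
  induction i generalizing v with
  | zero => simp [ob] at hv
  | succ i ih =>
    rw [ob, mem_sdiff, mem_nb] at hv
    rcases hv.1 with h | ⟨u, hu, huv⟩
    · rcases mem_insert.1 h with rfl | h
      · exact absurd hz hv.2
      · obtain ⟨R, h1, h2, h3⟩ := ih h
        exact ⟨R, by omega, h2, h3⟩
    · rcases mem_insert.1 hu with rfl | hu
      · exact ⟨[], by simp, by simp, by simpa using huv⟩
      · obtain ⟨R, h1, h2, h3⟩ := ih hu
        refine ⟨R ++ [u], by simp; omega, fun w hw => ?_, ?_⟩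
        · rcases List.mem_append.1 hw with h | h
          · exact h2 w h
          · rw [List.mem_singleton.1 h]; exact ob_notMem hu
        · rw [List.append_assoc, List.singleton_append, ← List.cons_append, List.isChain_split]
          exact ⟨h3, by simpa using huv⟩

/-- `v ∈ ob i` is the end of a walk `z :: R`, `R ≠ []`, of length at most `i` outside `X`. -/
theorem conn_of_adj (hz : z ∈ X) {i : ℕ} {v x : V} (hv : v ∈ ob G X z i) (hx : G.Adj v x) :
    ∃ l, 1 ≤ l ∧ l ≤ i ∧ Conn G X z x l := by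
  obtain ⟨R, h1, h2, h3⟩ := ball_walk hz hv
  obtain ⟨l, h4, h5, h6⟩ := conn_of_walk (G := G) (X := X) (x := z) (y := x) (R := R ++ [v])
    (by simp) (fun w hw => by
      rcases List.mem_append.1 hw with h | h
      · exact h2 w h
      · rw [List.mem_singleton.1 h]; exact ob_notMem hv) (by
      rw [List.append_assoc, List.singleton_append, ← List.cons_append, List.isChain_split]
      exact ⟨h3, by simpa using hx⟩)
  exact ⟨l, h4, by simp at h5; omega, h6⟩

theorem conn_of_touch (hz : z ∈ X) (hz' : z' ∈ X) {i j : ℕ} {v w : V} (hv : v ∈ ob G X z i)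
    (hw : w ∈ ob G X z' j) (h : v = w ∨ G.Adj v w) :
    ∃ l, 1 ≤ l ∧ l ≤ i + j ∧ Conn G X z z' l := by
  obtain ⟨R, h1, h2, h3⟩ := ball_walk hz hv
  obtain ⟨R', h1', h2', h3'⟩ := ball_walk hz' hw
  have hrev : List.IsChain G.Adj (w :: (R'.reverse ++ [z'])) := by
    have : w :: (R'.reverse ++ [z']) = (z' :: (R' ++ [w])).reverse := by simp
    rw [this, List.isChain_reverse]
    exact h3'.imp fun _ _ h => h.symm
  rcases h with rfl | h
  · obtain ⟨l, h4, h5, h6⟩ := conn_of_walk (G := G) (X := X) (x := z) (y := z')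
      (R := R ++ v :: R'.reverse) (by simp) (fun u hu => by
        simp only [List.mem_append, List.mem_cons, List.mem_reverse] at hu
        rcases hu with h | rfl | h
        exacts [h2 u h, ob_notMem hv, h2' u h]) (by
        rw [List.append_assoc, List.cons_append, ← List.cons_append, List.isChain_split]
        exact ⟨h3, hrev⟩)
    exact ⟨l, h4, by simp at h5; omega, h6⟩
  · obtain ⟨l, h4, h5, h6⟩ := conn_of_walk (G := G) (X := X) (x := z) (y := z')
      (R := R ++ v :: w :: R'.reverse) (by simp) (fun u hu => by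
        simp only [List.mem_append, List.mem_cons, List.mem_reverse] at hu
        rcases hu with h | rfl | rfl | h
        exacts [h2 u h, ob_notMem hv, ob_notMem hw, h2' u h]) (by
        rw [List.append_assoc, List.cons_append, ← List.cons_append, List.isChain_split]
        exact ⟨h3, List.isChain_cons_cons.2 ⟨h, hrev⟩⟩)
    exact ⟨l, h4, by simp at h5; omega, h6⟩

/-- The sets `J i` are pairwise disjoint and their union is independent. -/
theorem Ctx.balls (h : Ctx G k) {ι : Type*} (s : Finset ι) (c : ι → V) (ρ : ι → ℕ)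
    (J : ι → Finset V) (hc : ∀ i ∈ s, c i ∈ X) (hI : ∀ i ∈ s, Ind G (J i))
    (hJ : ∀ i ∈ s, J i ⊆ insert (c i) (ob G X (c i) (ρ i)))
    (hno : ∀ i ∈ s, ∀ j ∈ s, i ≠ j → ∀ l, 1 ≤ l → l ≤ ρ i + ρ j → ¬ Conn G X (c i) (c j) l)
    (hfl : ∀ i ∈ s, ∀ j ∈ s, i ≠ j → c i ∈ J i → c j ∈ J j → c i ≠ c j ∧ ¬ G.Adj (c i) (c j)) :
    ∑ i ∈ s, (J i).card ≤ k := by
  classical
  have key : ∀ i ∈ s, ∀ j ∈ s, i ≠ j → ∀ u ∈ J i, ∀ v ∈ J j, u ≠ v ∧ ¬ G.Adj u v := by
    intro i hi j hj hij u hu v hv
    rcases mem_insert.1 (hJ i hi hu) with rfl | hu' <;>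
      rcases mem_insert.1 (hJ j hj hv) with rfl | hv'
    · exact hfl i hi j hj hij hu hv
    · refine ⟨fun h => ob_notMem hv' (h ▸ hc i hi), fun h => ?_⟩
      obtain ⟨l, h1, h2, h3⟩ := conn_of_adj (hc j hj) hv' h.symm
      exact hno j hj i hi hij.symm l h1 (by omega) h3
    · refine ⟨fun h => ob_notMem hu' (h ▸ hc j hj), fun h => ?_⟩
      obtain ⟨l, h1, h2, h3⟩ := conn_of_adj (hc i hi) hu' h
      exact hno i hi j hj hij l h1 (by omega) h3
    · refine not_or.1 fun h => ?_
      obtain ⟨l, h1, h2, h3⟩ := conn_of_touch (hc i hi) (hc j hj) hu' hv' h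
      exact hno i hi j hj hij l h1 h2 h3
  rw [← card_biUnion (fun i hi j hj hij => disjoint_left.2 fun u hu hu' =>
    (key i hi j hj hij u hu u hu').1 rfl)]
  refine h.alpha _ fun u hu v hv => ?_
  obtain ⟨i, hi, hu⟩ := mem_biUnion.1 hu
  obtain ⟨j, hj, hv⟩ := mem_biUnion.1 hv
  by_cases hij : i = j
  · subst hij
    exact hI i hi u hu v hv
  · exact (key i hi j hj hij u hu v hv).2

/-- Otherwise `AlphaLe G B I.card`, and `exp` fails. -/
theorem Ctx.grow (h : Ctx G k) {I B Y : Finset V} (hne : I.Nonempty) (hI : Ind G I)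
    (hN : nb G I ⊆ B ∪ Y) {f : ℕ} (hf : AlphaLe G B I.card → B.card ≤ f)
    (hlt : f + Y.card ≤ k * I.card) : ∃ J ⊆ B, Ind G J ∧ J.card = I.card + 1 := by
  by_contra hcon
  have h1 : AlphaLe G B I.card := by
    intro J hJ hJ'
    by_contra h2
    obtain ⟨J', h3, h4⟩ := exists_subset_card_eq (show I.card + 1 ≤ J.card by omega)
    exact hcon ⟨J', h3.trans hJ, hJ'.mono h3, h4⟩
  have h2 := hf h1
  have h3 := h.exp I hne hI
  have h4 := (card_le_card hN).trans (card_union_le B Y)
  omega

theorem nb_subset_ob {i : ℕ} {I Y : Finset V} (hI : I ⊆ ob G X z i)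
    (hY : ∀ v ∈ I, ∀ x ∈ X, G.Adj v x → x ∈ Y) : nb G I ⊆ ob G X z (i + 1) ∪ Y := by
  intro v hv
  by_cases hvX : v ∈ X
  · rcases mem_nb.1 hv with h | ⟨u, hu, huv⟩
    · exact absurd hvX (ob_notMem (hI h))
    · exact mem_union_right _ (hY u hu v hvX huv)
  · refine mem_union_left _ (mem_sdiff.2 ⟨mem_nb.2 ?_, hvX⟩)
    rcases mem_nb.1 hv with h | ⟨u, hu, huv⟩
    · exact Or.inl (mem_insert_of_mem (hI h))
    · exact Or.inr ⟨u, mem_insert_of_mem (hI hu), huv⟩

/-- `exp` for `{z}`. -/
theorem Ctx.ob_one (h : Ctx G k) (hz : z ∈ X) {Y : Finset V}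
    (hY : ∀ x ∈ X, G.Adj z x → x ∈ Y) : k ≤ (ob G X z 1).card + Y.card := by
  have h1 := h.exp {z} (singleton_nonempty z) (ind_singleton z)
  have h2 : nb G {z} ⊆ insert z (ob G X z 1 ∪ Y) := by
    intro v hv
    simp only [mem_nb, mem_singleton, exists_eq_left] at hv
    rcases hv with rfl | hv
    · exact mem_insert_self _ _
    · refine mem_insert_of_mem ?_
      by_cases hvX : v ∈ X
      · exact mem_union_right _ (hY v hvX hv)
      · exact mem_union_left _ ((mem_ob_one hz).2 ⟨hvX, hv⟩)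
  have h3 := (card_le_card h2).trans (card_insert_le _ _)
  have h4 := card_union_le (ob G X z 1) Y
  rw [card_singleton] at h1
  omega

end Crest.Agent.R054
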