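import Crest.Agent.R054.Defs

/-! Row 54: basic facts, the reduction to a minimal counterexample, triangles. -/

set_option autoImplicit false

namespace Crest.Agent.R054

open Finset

variable {V : Type*} {G : SimpleGraph V}

theorem basic_cyc {f : ℕ → V} {n : ℕ} {R : List V}
    (hinj : ∀ i ≤ n, ∀ j ≤ n, f i = f j → i = j) (hadj : ∀ i < n, G.Adj (f i) (f (i + 1)))
    (hR : R.Nodup) (hRf : ∀ v ∈ R, ∀ i ≤ n, f i ≠ v)
    (hch : List.IsChain G.Adj (f n :: (R ++ [f 0]))) : HasCyc G (n + 1 + R.length) := by
  refine ⟨(List.range (n + 1)).map f ++ R, by simp, ?_, ?_⟩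
  · rw [List.nodup_append]
    refine ⟨List.Nodup.map_on ?_ List.nodup_range, hR, ?_⟩
    · intro i hi j hj hij
      rw [List.mem_range] at hi hj
      exact hinj i (by omega) j (by omega) hij
    · intro x hx y hy
      obtain ⟨i, hi, rfl⟩ := List.mem_map.1 hx
      rw [List.mem_range] at hi
      exact hRf y hy i (by omega)
  · have h1 : ((List.range (n + 1)).map f ++ R).take 1 = [f 0] := by
      rw [List.range_succ_eq_map]; simp
    have h2 : (List.range (n + 1)).map f = (List.range n).map f ++ [f n] := by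
      rw [List.range_succ]; simp
    rw [h1]
    have h3 : (List.range (n + 1)).map f ++ R ++ [f 0] =
        (List.range n).map f ++ f n :: (R ++ [f 0]) := by
      rw [h2]; simp
    rw [h3, List.isChain_split]
    refine ⟨?_, hch⟩
    rw [← h2, List.isChain_map, List.isChain_range_succ]
    exact hadj

/-- `l = (List.range N).map c`. -/
theorem Cyc.hasCyc {N : ℕ} {c : ℕ → V} (h : Cyc G N c) : HasCyc G N := by
  obtain ⟨n, rfl⟩ : ∃ n, N = n + 1 := ⟨N - 1, by have := h.three; omega⟩
  have := basic_cyc (G := G) (f := c) (n := n) (R := [])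
    (fun i hi j hj => h.inj i (by omega) j (by omega)) (fun i hi => h.adj i (by omega))
    List.nodup_nil (by simp) (by simpa using h.close)
  simpa using this

theorem basic_walk {a b : V} {l' : List V} (h : List.IsChain G.Adj (a :: (l' ++ [b]))) :
    ∃ p : G.Walk a b, p.support = a :: (l' ++ [b]) := by
  induction l' generalizing a with
  | nil =>
    have hab : G.Adj a b := by simpa using h
    exact ⟨SimpleGraph.Walk.cons hab SimpleGraph.Walk.nil, by simp⟩
  | cons c l ih =>
    rw [List.cons_append, List.isChain_cons_cons] at h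
    obtain ⟨p, hp⟩ := ih h.2
    exact ⟨SimpleGraph.Walk.cons h.1 p, by simp [hp]⟩

/-- A list cycle with at least three vertices is a cycle of Mathlib (build the walk from the chain,
e.g. `SimpleGraph.Walk.ofSupport` or by induction; `Walk.isCycle_def` / `Walk.cons_isCycle_iff`:
for `l = a :: l'` take the path along `l'` followed by the edge to `a`...). -/
theorem HasCyc.walk {n : ℕ} (hn : 3 ≤ n) (h : HasCyc G n) :
    ∃ v : V, ∃ p : G.Walk v v, p.IsCycle ∧ p.length = n := by
  obtain ⟨l, hl, hnd, hch⟩ := h
  match l, hl, hnd, hch with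
  | [], hl, _, _ => simp at hl; omega
  | a :: l', hl, hnd, hch =>
    have hch' : List.IsChain G.Adj (a :: (l' ++ [a])) := by simpa using hch
    obtain ⟨p, hp⟩ := basic_walk (l' := l') hch'
    have hlen : p.length = n := by
      have := p.length_support
      rw [hp] at this
      simp at this hl
      omega
    refine ⟨a, p, ?_, hlen⟩
    rw [SimpleGraph.Walk.isCycle_iff_isPath_tail_and_le_length]
    refine ⟨?_, by omega⟩
    have hnil : ¬ p.Nil := by
      rw [SimpleGraph.Walk.not_nil_iff_lt_length]; omega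
    rw [SimpleGraph.Walk.isPath_def, SimpleGraph.Walk.support_tail_of_not_nil _ hnil, hp,
      List.tail_cons]
    exact (List.perm_append_singleton a l').nodup_iff.2 hnd

/-- Take `n` vertices of the clique in any order. -/
theorem Clq.hasCyc {K : Finset V} (hK : Clq G K) {n : ℕ} (hn : 2 ≤ n) (hle : n ≤ K.card) :
    HasCyc G n := by
  obtain ⟨K', hK', hc⟩ := Finset.exists_subset_card_eq hle
  have hnd := K'.nodup_toList
  have hlen : K'.toList.length = n := by rw [Finset.length_toList, hc]
  have hmem : ∀ v ∈ K'.toList, v ∈ K := fun v hv => hK' (Finset.mem_toList.1 hv)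
  refine ⟨K'.toList, hlen, hnd, ?_⟩
  generalize K'.toList = l at hnd hlen hmem
  match l, hnd, hlen, hmem with
  | [], _, hlen, _ => simp at hlen; omega
  | [_], _, hlen, _ => simp at hlen; omega
  | a :: b :: l, hnd, _, hmem =>
    rw [List.isChain_append]
    refine ⟨List.Pairwise.isChain ?_, by simp, ?_⟩
    · exact List.Pairwise.imp_of_mem (fun hu hv huv => hK _ (hmem _ hu) _ (hmem _ hv) huv) hnd
    · intro x hx y hy
      have hy' : y = a := by simpa [eq_comm] using hy
      subst hy'
      rw [List.getLast?_cons_cons] at hx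
      have hx' : x ∈ b :: l := List.mem_of_getLast? hx
      refine hK _ (hmem _ (List.mem_cons_of_mem _ hx')) _ (hmem _ List.mem_cons_self) ?_
      rintro rfl
      exact (List.nodup_cons.1 hnd).1 hx'

/-- Reverse the list. -/
theorem Conn.symm {X : Finset V} {x y : V} {l : ℕ} (h : Conn G X x y l) : Conn G X y x l := by
  obtain ⟨R, hl, hnd, hX, hch⟩ := h
  refine ⟨R.reverse, by simpa using hl, List.nodup_reverse.2 hnd,
    fun v hv => hX v (List.mem_reverse.1 hv), ?_⟩
  have : y :: (R.reverse ++ [x]) = (x :: (R ++ [y])).reverse := by simp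
  rw [this, List.isChain_reverse]
  exact hch.imp fun a b h => h.symm

theorem conn_zero {X : Finset V} {x y : V} : Conn G X x y 0 ↔ G.Adj x y := by
  constructor
  · rintro ⟨R, hl, -, -, hch⟩
    rw [List.length_eq_zero_iff] at hl
    subst hl
    simpa using hch
  · intro h
    exact ⟨[], rfl, List.nodup_nil, by simp, by simpa using h⟩

theorem conn_one {X : Finset V} {x y : V} :
    Conn G X x y 1 ↔ ∃ v, v ∉ X ∧ G.Adj x v ∧ G.Adj v y := by
  constructor
  · rintro ⟨R, hl, -, hX, hch⟩
    obtain ⟨v, rfl⟩ := List.length_eq_one_iff.1 hl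
    exact ⟨v, hX v (by simp), by simpa using hch⟩
  · rintro ⟨v, hv, h1, h2⟩
    exact ⟨[v], rfl, List.nodup_singleton v, by simpa using hv, by simp [h1, h2]⟩

/-- A path inside `X` closed up by a path outside `X`. -/
theorem hasCyc_of_conn {X : Finset V} {f : ℕ → V} {n l : ℕ} (hX : ∀ i ≤ n, f i ∈ X)
    (hinj : ∀ i ≤ n, ∀ j ≤ n, f i = f j → i = j) (hadj : ∀ i < n, G.Adj (f i) (f (i + 1)))
    (h : Conn G X (f n) (f 0) l) : HasCyc G (n + 1 + l) := by
  obtain ⟨R, rfl, hnd, hR, hch⟩ := h
  refine basic_cyc hinj hadj hnd ?_ hch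
  rintro v hv i hi rfl
  exact hR _ hv (hX i hi)

theorem Ind.mono {I J : Finset V} (h : Ind G J) (hIJ : I ⊆ J) : Ind G I :=
  fun u hu v hv => h u (hIJ hu) v (hIJ hv)

theorem ind_singleton (v : V) : Ind G {v} := by
  intro u hu w hw
  rw [mem_singleton.1 hu, mem_singleton.1 hw]
  exact G.irrefl

/-- A maximum independent subset. -/
theorem exists_alpha (G : SimpleGraph V) (B : Finset V) :
    ∃ I ⊆ B, Ind G I ∧ AlphaLe G B I.card := by
  classical
  obtain ⟨I, hI, hmax⟩ := Finset.exists_max_image (B.powerset.filter (Ind G)) Finset.card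
    ⟨∅, by simp [Ind]⟩
  rw [mem_filter, mem_powerset] at hI
  exact ⟨I, hI.1, hI.2, fun J hJ hind => hmax J (mem_filter.2 ⟨mem_powerset.2 hJ, hind⟩)⟩

/-- A set without two non-adjacent vertices is a clique. -/
theorem OmegaLe.card_le {t : ℕ} (h : OmegaLe G t) {B : Finset V} (hB : AlphaLe G B 1) :
    B.card ≤ t := by
  classical
  refine h B fun u hu v hv huv => ?_
  by_contra hadj
  have := hB {u, v} (by simp [insert_subset_iff, hu, hv]) (by
    intro x hx y hy
    simp only [mem_insert, mem_singleton] at hx hy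
    rcases hx with rfl | rfl <;> rcases hy with rfl | rfl
    · exact G.irrefl
    · exact hadj
    · exact fun h => hadj h.symm
    · exact G.irrefl)
  rw [card_pair huv] at this
  omega

variable [Fintype V] [DecidableEq V]

/-- A maximum clique. -/
theorem exists_omega (G : SimpleGraph V) : ∃ Q : Finset V, Clq G Q ∧ OmegaLe G Q.card := by
  classical
  obtain ⟨Q, hQ, hmax⟩ := Finset.exists_max_image (univ.filter (Clq G)) Finset.card
    ⟨∅, by simp [Clq]⟩
  exact ⟨Q, (mem_filter.1 hQ).2, fun K hK => hmax K (mem_filter.2 ⟨mem_univ _, hK⟩)⟩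

theorem basic_alpha_sdiff {B I : Finset V} {a : ℕ} (ha : AlphaLe G B a) (hIB : I ⊆ B)
    (hind : Ind G I) : AlphaLe G (B \ nb G I) (a - I.card) := by
  intro J hJ hJi
  have hJ' : ∀ v ∈ J, v ∉ I ∧ ∀ u ∈ I, ¬ G.Adj u v := by
    intro v hv
    have := (mem_sdiff.1 (hJ hv)).2
    rw [mem_nb] at this
    push Not at this
    exact this
  have hdisj : Disjoint I J := disjoint_right.2 fun v hv => (hJ' v hv).1
  have := ha (I ∪ J) (union_subset hIB (hJ.trans sdiff_subset)) (by
    intro u hu v hv
    rcases mem_union.1 hu with hu | hu <;> rcases mem_union.1 hv with hv | hv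
    · exact hind u hu v hv
    · exact (hJ' v hv).2 u hu
    · exact fun h => (hJ' u hu).2 v hv h.symm
    · exact hJi u hu v hv)
  rw [card_union_of_disjoint hdisj] at this
  omega

/-- Take a minimal nonempty `H ⊆ L` for which some `a` has `AlphaLe G H a` and
`d * a + ε ≤ H.card`.  For `I ⊆ H` independent and nonempty, `H' = H \ nb G I` has
`AlphaLe G H' (a - I.card)` (add `I`) and `I.card ≤ a`; if `H'` is nonempty use minimality. -/
theorem dense (G : SimpleGraph V) {L : Finset V} (hne : L.Nonempty) {d a ε : ℕ} (hε : ε ≤ 1)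
    (ha : AlphaLe G L a) (hL : d * a + ε ≤ L.card) :
    ∃ H ⊆ L, H.Nonempty ∧ ∀ I ⊆ H, I.Nonempty → Ind G I →
      d * I.card + ε ≤ (nb G I ∩ H).card := by
  induction L using Finset.strongInduction generalizing a with
  | H L ih =>
    by_cases h : ∀ I ⊆ L, I.Nonempty → Ind G I → d * I.card + ε ≤ (nb G I ∩ L).card
    · exact ⟨L, Subset.rfl, hne, h⟩
    · push Not at h
      obtain ⟨I, hIL, hIne, hind, hlt⟩ := h
      have hIa : I.card ≤ a := ha I hIL hind
      have hcard : (L \ nb G I).card + (nb G I ∩ L).card = L.card := by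
        rw [inter_comm]; exact card_sdiff_add_card_inter L (nb G I)
      have hmul : d * a = d * (a - I.card) + d * I.card := by
        rw [← mul_add]; congr 1; omega
      have hss : L \ nb G I ⊂ L := by
        obtain ⟨v, hv⟩ := hIne
        exact ⟨sdiff_subset, fun hsub =>
          (mem_sdiff.1 (hsub (hIL hv))).2 (mem_nb.2 (Or.inl hv))⟩
      obtain ⟨H, hH, h1, h2⟩ := ih _ hss (card_pos.1 (by omega)) (basic_alpha_sdiff ha hIL hind)
        (by omega)
      exact ⟨H, hH.trans sdiff_subset, h1, h2⟩

/-- Suppose there is no triangle.  Then neighbourhoods are independent, so every vertex has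
exactly `k` neighbours (`exp` for singletons, `alpha`).  Fix `v` with neighbourhood `N`; `exp` for
`N` gives `k * k + 1 ≤ (nb G N).card`.  With `A u = N(u) \ {v}` (`k - 1` elements) we have
`nb G N ⊆ {v} ∪ N ∪ ⋃_{u ∈ N} A u`.  Fix `u₁ ∈ N`.  If some `w ∈ A u₁` lies in `A u` for another
`u ∈ N` the union has fewer than `k (k - 1)` elements, a contradiction; otherwise
`A u₁ ∪ (N \ {u₁})` is independent with `2 k - 2 > k` elements. -/
theorem Ctx.tri {k : ℕ} (h : Ctx G k) : ¬ OmegaLe G 2 := by
  classical
  intro hω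
  have hk := h.k3
  set N : V → Finset V := fun v => univ.filter (G.Adj v) with hN
  have hmN : ∀ v u, u ∈ N v ↔ G.Adj v u := fun v u => by simp [hN]
  have hind : ∀ v, Ind G (N v) := by
    intro v u hu w hw huw
    rw [hmN] at hu hw
    have := hω {v, u, w} (by
      intro x hx y hy hxy
      simp only [mem_insert, mem_singleton] at hx hy
      rcases hx with rfl | rfl | rfl <;> rcases hy with rfl | rfl | rfl <;>
        first | exact absurd rfl hxy | assumption | exact G.adj_symm ‹_›)
    rw [card_eq_three.2 ⟨v, u, w, hu.ne, hw.ne, huw.ne, rfl⟩] at this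
    omega
  have hcard : ∀ v, (N v).card = k := by
    intro v
    refine le_antisymm (h.alpha _ (hind v)) ?_
    have h1 := h.exp {v} (singleton_nonempty v) (ind_singleton v)
    have h2 : nb G {v} ⊆ insert v (N v) := by
      intro u hu
      rw [mem_nb] at hu
      simpa [hmN] using hu
    have h3 := (card_le_card h2).trans (card_insert_le _ _)
    rw [card_singleton] at h1
    omega
  obtain ⟨v⟩ := h.ne
  obtain ⟨u₁, hu₁⟩ : (N v).Nonempty := card_pos.1 (by rw [hcard]; omega)
  set A : V → Finset V := fun u => (N u).erase v with hA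
  have hAc : ∀ u ∈ N v, (A u).card = k - 1 := by
    intro u hu
    rw [hA]
    simp only
    rw [card_erase_of_mem ((hmN _ _).2 ((hmN _ _).1 hu).symm), hcard]
  have h1 := h.exp (N v) ⟨u₁, hu₁⟩ (hind v)
  rw [hcard] at h1
  by_cases hc : ∃ w ∈ A u₁, ∃ u ∈ (N v).erase u₁, w ∈ A u
  · obtain ⟨w, hw, u, hu, hwu⟩ := hc
    have h2 : nb G (N v) ⊆
        insert v (N v ∪ ((A u₁).erase w ∪ ((N v).erase u₁).biUnion A)) := by
      intro x hx
      rw [mem_nb] at hx
      rw [mem_insert, mem_union, mem_union, mem_biUnion]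
      by_cases hxv : x = v
      · exact Or.inl hxv
      rcases hx with hx | ⟨y, hy, hyx⟩
      · exact Or.inr (Or.inl hx)
      refine Or.inr (Or.inr ?_)
      have hxA : x ∈ A y := mem_erase.2 ⟨hxv, (hmN _ _).2 hyx⟩
      by_cases hy1 : y = u₁
      · subst hy1
        by_cases hxw : x = w
        · exact Or.inr ⟨u, hu, hxw ▸ hwu⟩
        · exact Or.inl (mem_erase.2 ⟨hxw, hxA⟩)
      · exact Or.inr ⟨y, mem_erase.2 ⟨hy1, hy⟩, hxA⟩
    have h3 : (((N v).erase u₁).biUnion A).card ≤ (k - 1) * (k - 1) := by
      refine (card_biUnion_le_card_mul _ _ (k - 1) fun y hy =>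
        (hAc y (mem_of_mem_erase hy)).le).trans ?_
      rw [card_erase_of_mem hu₁, hcard]
    have h4 : ((A u₁).erase w).card = k - 1 - 1 := by rw [card_erase_of_mem hw, hAc _ hu₁]
    have h5 := (card_le_card h2).trans (card_insert_le _ _)
    have h6 := card_union_le (N v) ((A u₁).erase w ∪ ((N v).erase u₁).biUnion A)
    have h7 := card_union_le ((A u₁).erase w) (((N v).erase u₁).biUnion A)
    rw [hcard] at h6
    obtain ⟨j, rfl⟩ : ∃ j, k = j + 2 := ⟨k - 2, by omega⟩
    have e1 : j + 2 - 1 = j + 1 := rfl
    rw [e1] at h3 h4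
    have e2 : j + 1 - 1 = j := rfl
    rw [e2] at h4
    nlinarith
  · push Not at hc
    have hx : ∀ w ∈ A u₁, ∀ u ∈ (N v).erase u₁, ¬ G.Adj u w := fun w hw u hu huw =>
      hc w hw u hu (mem_erase.2 ⟨(mem_erase.1 hw).1, (hmN _ _).2 huw⟩)
    have hdisj : Disjoint (A u₁) ((N v).erase u₁) := by
      rw [disjoint_left]
      intro w hw hw'
      exact hind v u₁ hu₁ w (mem_of_mem_erase hw') ((hmN _ _).1 (mem_of_mem_erase hw))
    have h2 := h.alpha (A u₁ ∪ (N v).erase u₁) (by
      intro x hx' y hy
      rcases mem_union.1 hx' with hx' | hx' <;> rcases mem_union.1 hy with hy | hy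
      · exact hind u₁ x (mem_of_mem_erase hx') y (mem_of_mem_erase hy)
      · exact fun hxy => hx x hx' y hy hxy.symm
      · exact hx y hy x hx'
      · exact hind v x (mem_of_mem_erase hx') y (mem_of_mem_erase hy))
    rw [card_union_of_disjoint hdisj, hAc _ hu₁, card_erase_of_mem hu₁, hcard] at h2
    omega

/-- Strong induction on the number of vertices.  If `k * a < card V` then `Ctx G k` holds: `ih` is
the induction hypothesis for the graph induced on `B` (`G.comap Subtype.val` on `↥B`, with
`min a k`), and `exp` is `ih` for `B = univ \ nb G I`, which has `AlphaLe G B (a - I.card)`. -/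
theorem reduce {k : ℕ} (hk : 3 ≤ k)
    (main : ∀ (W : Type) [Fintype W] [DecidableEq W] (G' : SimpleGraph W), ¬ Ctx G' k)
    (W : Type) [Fintype W] [DecidableEq W] (G' : SimpleGraph W) (hc : ¬ HasCyc G' (k + 1))
    {a : ℕ} (hak : a ≤ k) (ha : AlphaLe G' univ a) : Fintype.card W ≤ k * a := by
  induction hn : Fintype.card W using Nat.strong_induction_on generalizing W a with
  | _ n ih =>
    by_contra hlt
    push Not at hlt
    have halpha : ∀ I : Finset W, Ind G' I → I.card ≤ k := fun I hI =>
      (ha I (subset_univ _) hI).trans hak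
    have hih : ∀ (B : Finset W) (b : ℕ), B ≠ univ → AlphaLe G' B b → B.card ≤ k * b := by
      intro B b hB hb
      have hlt' : Fintype.card B < n := by
        rw [Fintype.card_coe, ← hn]
        exact card_lt_card (ssubset_univ_iff.2 hB)
      have := ih _ hlt' B (G'.comap Subtype.val) (a := min b k) ?_ (min_le_right _ _) ?_ rfl
      · rw [Fintype.card_coe] at this
        exact this.trans (Nat.mul_le_mul_left _ (min_le_left _ _))
      · rintro ⟨l, hl, hnd, hch⟩
        refine hc ⟨l.map Subtype.val, by simpa using hl, hnd.map Subtype.val_injective, ?_⟩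
        rw [← List.map_take, ← List.map_append, List.isChain_map]
        exact hch
      · intro I _ hI
        have hI' : Ind G' (I.map (Function.Embedding.subtype _)) := by
          intro u hu v hv
          obtain ⟨u', hu', rfl⟩ := mem_map.1 hu
          obtain ⟨v', hv', rfl⟩ := mem_map.1 hv
          exact hI u' hu' v' hv'
        rw [← card_map (Function.Embedding.subtype _)]
        refine le_min (hb _ ?_ hI') (halpha _ hI')
        intro u hu
        obtain ⟨u', -, rfl⟩ := mem_map.1 hu
        exact u'.2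
    refine main W G' ⟨hk, ?_, hc, halpha, hih, ?_⟩
    · exact Fintype.card_pos_iff.1 (by omega)
    · intro I hIne hI
      have hIa : I.card ≤ a := ha I (subset_univ _) hI
      have h1 := hih (univ \ nb G' I) _ (by
        obtain ⟨v, hv⟩ := hIne
        intro hu
        have : v ∈ univ \ nb G' I := by rw [hu]; exact mem_univ _
        exact (mem_sdiff.1 this).2 (mem_nb.2 (Or.inl hv)))
        (basic_alpha_sdiff ha (subset_univ _) hI)
      have h2 : (univ \ nb G' I).card + (nb G' I).card = n := by
        rw [card_sdiff_add_card_eq_card (subset_univ _), card_univ, hn]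
      have hmul : k * a = k * (a - I.card) + k * I.card := by
        rw [← mul_add]; congr 1; omega
      omega

end Crest.Agent.R054
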