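import Crest.Agent.R054.Defs

/-! Row 54: the certificate checker for small clique numbers (definitions). -/

set_option autoImplicit false

namespace Crest.Agent.R054

/-- Bit test. -/
def tb (m i : ℕ) : Bool := Nat.beq (Nat.land (Nat.shiftRight m i) 1) 1

/-- The `i`-th digit in base `32`. -/
def dg (m i : ℕ) : ℕ := Nat.land (Nat.shiftRight m (Nat.mul 5 i)) 31

/-- The number of `x < n` with `p x`. -/
def cntB (p : ℕ → Bool) (n : ℕ) : ℕ :=
  Nat.rec 0 (fun i r => cond (p i) (Nat.succ r) r) n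

section weights

variable (k t n : ℕ) (F : ℕ → ℕ → ℕ → Bool)

/-- All lengths `1, …, i` are forbidden. -/
def runB (z x : ℕ) (i : ℕ) : Bool :=
  Nat.rec true (fun j r => cond (F z x (Nat.succ j)) r false) i

/-- The number of `x ≠ z` with an allowed length in `1, …, i`. -/
def nA (z i : ℕ) : ℕ := cntB (fun x => cond (Nat.beq x z) false (not (runB F z x i))) n

/-- The number of `x ≠ z` that may be adjacent to `z`. -/
def nD (z : ℕ) : ℕ := cntB (fun x => cond (Nat.beq x z) false (not (F z x 0))) n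

/-- The bound for the size of a set with independence number `a`. -/
def fs (a : ℕ) : ℕ :=
  cond (Nat.beq a 1) t (cond (Nat.beq a 2 && Nat.ble 5 k) (Nat.mul 2 t) (Nat.mul k a))

/-- One growth step. -/
def gr (a y : ℕ) : Bool := Nat.ble 1 a && Nat.ble (Nat.add (fs k t a) y) (Nat.mul k a)

/-- `W0' z i` is a lower bound for the independence number of `ob (i + 1)`. -/
def W0' (z : ℕ) (i : ℕ) : ℕ :=
  Nat.rec (cond (Nat.ble (Nat.add (nD n F z) t) k) 2 (cond (Nat.ble (Nat.succ (nD n F z)) k) 1 0))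
    (fun j a => cond (gr k t a (Nat.succ (nA n F z (Nat.succ j)))) (Nat.succ a) a) i

/-- A lower bound for the independence number of `ob i`. -/
def W0 (z : ℕ) (i : ℕ) : ℕ := Nat.rec 0 (fun j _ => W0' k t n F z j) i

/-- A lower bound for the independence number of `insert z (ob i)`. -/
def W1 (z : ℕ) (i : ℕ) : ℕ :=
  Nat.rec 1 (fun j _ => cond (gr k t (W0 k t n F z j) (nA n F z j))
    (Nat.succ (W0 k t n F z j)) 1) i

/-- The weight of a centre `(z, radius, flag)`. -/
def Wt (c : ℕ × ℕ × Bool) : ℕ := cond c.2.2 (W1 k t n F c.1 c.2.1) (W0 k t n F c.1 c.2.1)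

/-- Two centres are compatible. -/
def compat (c c' : ℕ × ℕ × Bool) : Bool :=
  not (Nat.beq c.1 c'.1) && runB F c.1 c'.1 (Nat.add c.2.1 c'.2.1) &&
    (not (c.2.2 && c'.2.2) || F c.1 c'.1 0)

/-- The centres are vertices and pairwise compatible. -/
def selOK (sel : List (ℕ × ℕ × Bool)) : Bool :=
  List.rec true (fun c l r => Nat.ble (Nat.succ c.1) n && l.all (compat F c) && r) sel

/-- The total weight. -/
def selW (sel : List (ℕ × ℕ × Bool)) : ℕ :=
  List.rec 0 (fun c _ r => Nat.add (Wt k t n F c) r) sel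

end weights

/-- Configurations: graphs on `{0, …, n - 1}`. -/
structure Cfg where
  n : ℕ
  es : List (ℕ × ℕ)

/-- Copies of a configuration. -/
def Emb {V : Type*} (G : SimpleGraph V) (P : Cfg) (f : ℕ → V) : Prop :=
  (∀ i < P.n, ∀ j < P.n, f i = f j → i = j) ∧ ∀ e ∈ P.es, G.Adj (f e.1) (f e.2)

/-- The edges of a path from `x` to `y` through the new vertices `n, …, n + l - 1`. -/
def pe (y : ℕ) (l : ℕ) : ℕ → ℕ → List (ℕ × ℕ) :=
  Nat.rec (fun x _ => [(x, y)]) (fun _ r x n => (x, n) :: r n (Nat.succ n)) l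

/-- The adjacency matrix. -/
def mkAdj (es : List (ℕ × ℕ)) : ℕ :=
  List.rec 0 (fun e _ r => Nat.lor (Nat.lor
    (Nat.shiftLeft 1 (Nat.add (Nat.mul 32 e.1) e.2))
    (Nat.shiftLeft 1 (Nat.add (Nat.mul 32 e.2) e.1))) r) es

/-- The first `j` digits of `m` are different and `< n`: the set of digits, with bit `32` set in
case of failure. -/
def used (n m : ℕ) (j : ℕ) : ℕ :=
  Nat.rec 0 (fun i r => cond (Nat.ble n (dg m i) || tb r (dg m i)) (Nat.shiftLeft 1 32)
    (cond (tb r 32) r (Nat.lor r (Nat.shiftLeft 1 (dg m i))))) j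

/-- The digits of `m` embed `P` in the graph on `n` vertices with adjacency matrix `am`. -/
def embOK (P : Cfg) (n am m : ℕ) : Bool :=
  not (tb (used n m P.n) 32) &&
    P.es.all fun e => tb am (Nat.add (Nat.mul 32 (dg m e.1)) (dg m e.2))

/-- A reason: a path of `l` new vertices from `x` to `y` creates the dead configuration `i`. -/
structure Rsn where
  x : ℕ
  y : ℕ
  l : ℕ
  i : ℕ
  m : ℕ

/-- The position of a triple in the table of forbidden paths. -/
def ix (x y l : ℕ) : ℕ := Nat.add (Nat.mul 16 (Nat.add (Nat.mul 32 x) y)) l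

/-- The table of forbidden paths. -/
def mkF (rs : List Rsn) : ℕ :=
  List.rec 0 (fun r _ a => Nat.lor (Nat.lor (Nat.shiftLeft 1 (ix r.x r.y r.l))
    (Nat.shiftLeft 1 (ix r.y r.x r.l))) a) rs

/-- Lookup in the table. -/
def getF (fm x y l : ℕ) : Bool := Nat.ble l 15 && tb fm (ix x y l)

/-- One reason is valid. -/
def rsnOK (dead : List Cfg) (n am : ℕ) (r : Rsn) : Bool :=
  Nat.ble (Nat.succ r.x) n && Nat.ble (Nat.succ r.y) n && Nat.ble r.l 15 &&
    Nat.ble (Nat.add n r.l) 32 && Nat.ble (Nat.succ r.i) dead.length &&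
    embOK (dead.getD r.i ⟨0, []⟩) (Nat.add n r.l) (Nat.lor am (mkAdj (pe r.y r.l r.x n))) r.m

/-- One step of a certificate. -/
structure Step where
  H : Cfg
  am : ℕ
  fm : ℕ
  rs : List Rsn
  sel : List (ℕ × ℕ × Bool)

/-- One step is valid. -/
def stepOK (k t : ℕ) (dead : List Cfg) (s : Step) : Bool :=
  Nat.ble 2 s.H.n && Nat.ble s.H.n 32 &&
    s.H.es.all (fun e => Nat.ble (Nat.succ e.1) s.H.n && Nat.ble (Nat.succ e.2) s.H.n) &&
    Nat.beq s.am (mkAdj s.H.es) && Nat.beq s.fm (mkF s.rs) &&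
    s.rs.all (rsnOK dead s.H.n s.am) && selOK s.H.n (getF s.fm) s.sel &&
    Nat.ble (Nat.succ k) (selW k t s.H.n (getF s.fm) s.sel)

/-- The cycle with `n` vertices. -/
def cycC (n : ℕ) : Cfg := ⟨n, (n - 1, 0) :: (List.range (n - 1)).map fun i => (i, i + 1)⟩

/-- The complete graph with `n` vertices. -/
def clqC (n : ℕ) : Cfg :=
  ⟨n, (List.range n).flatMap fun j => (List.range j).map fun i => (i, j)⟩

/-- All steps are valid; every step appends its configuration to the list of dead ones; the last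
step kills the complete graph on `t` vertices. -/
def certOK (k t : ℕ) (steps : List Step) : List Cfg → Bool :=
  List.rec (fun _ => false) (fun s l r dead => stepOK k t dead s &&
    cond l.isEmpty (Nat.beq s.H.n t && (s.H.es.all fun e => not (Nat.beq e.1 e.2)))
      (r (dead ++ [s.H]))) steps

end Crest.Agent.R054
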