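import Crest.Agent.R054.Cert3
import Crest.Agent.R054.Cert4
import Crest.Agent.R054.Cert5
import Crest.Agent.R054.Cert6

/-! Row 54: the certificates. -/

set_option autoImplicit false

namespace Crest.Agent.R054

theorem small {k t : ℕ} (h3 : 3 ≤ t) (h6 : t ≤ 6) (hk : t ≤ k) (hk' : k + 1 ≤ 2 * t) :
    ∃ steps, certOK k t steps [cycC (k + 1), clqC (t + 1)] = true := by
  have hk11 : k ≤ 11 := by omega
  interval_cases t <;> interval_cases k <;> first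
    | omega
    | exact ⟨_, ok3_3⟩
    | exact ⟨_, ok4_3⟩
    | exact ⟨_, ok5_3⟩
    | exact ⟨_, ok4_4⟩
    | exact ⟨_, ok5_4⟩
    | exact ⟨_, ok6_4⟩
    | exact ⟨_, ok7_4⟩
    | exact ⟨_, ok5_5⟩
    | exact ⟨_, ok6_5⟩
    | exact ⟨_, ok7_5⟩
    | exact ⟨_, ok8_5⟩
    | exact ⟨_, ok9_5⟩
    | exact ⟨_, ok6_6⟩
    | exact ⟨_, ok7_6⟩
    | exact ⟨_, ok8_6⟩
    | exact ⟨_, ok9_6⟩
    | exact ⟨_, ok10_6⟩
    | exact ⟨_, ok11_6⟩

end Crest.Agent.R054
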