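import Crest.Agent.R054.CDefs
import Crest.Agent.R054.Basic

/-! Row 54: soundness of the embedding checks. -/

set_option autoImplicit false

namespace Crest.Agent.R054

open Finset

theorem tb_eq (m i : ℕ) : tb m i = m.testBit i := by
  unfold tb Nat.testBit
  change Nat.beq ((m >>> i) &&& 1) 1 = (1 &&& (m >>> i) != 0)
  rw [Nat.and_comm 1, Nat.and_one_is_mod]
  rcases Nat.mod_two_eq_zero_or_one (m >>> i) with h | h <;> rw [h] <;> rfl

theorem dg_lt (m i : ℕ) : dg m i < 32 := by
  exact Nat.lt_succ_of_le Nat.and_le_right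

theorem embed_tb_lor (a b i : ℕ) : tb (Nat.lor a b) i = (tb a i || tb b i) := by
  simp only [tb_eq]
  exact Nat.testBit_or a b i

theorem embed_tb_shift (a i : ℕ) : tb (Nat.shiftLeft 1 a) i = decide (a = i) := by
  rw [tb_eq]
  change (1 <<< a).testBit i = _
  rw [Nat.one_shiftLeft, Nat.testBit_two_pow]

theorem embed_tb_zero (i : ℕ) : tb 0 i = false := by
  rw [tb_eq, Nat.zero_testBit]

theorem mkAdj_sound {es : List (ℕ × ℕ)} (hes : ∀ e ∈ es, e.1 < 32 ∧ e.2 < 32) {u v : ℕ}
    (hv : v < 32) (h : tb (mkAdj es) (32 * u + v) = true) : (u, v) ∈ es ∨ (v, u) ∈ es := by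
  induction es with
  | nil => exact absurd h (by simp [mkAdj, embed_tb_zero])
  | cons e es ih =>
    change tb (Nat.lor (Nat.lor (Nat.shiftLeft 1 (32 * e.1 + e.2)) (Nat.shiftLeft 1 (32 * e.2 + e.1)))
      (mkAdj es)) _ = true at h
    simp only [embed_tb_lor, embed_tb_shift, Bool.or_eq_true, decide_eq_true_eq] at h
    obtain ⟨h1, h2⟩ := hes e List.mem_cons_self
    rcases h with (h | h) | h
    · exact Or.inl (List.mem_cons.2 (Or.inl (Prod.ext (by simp only; omega) (by simp only; omega))))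
    · exact Or.inr (List.mem_cons.2 (Or.inl (Prod.ext (by simp only; omega) (by simp only; omega))))
    · exact (ih (fun e he => hes e (List.mem_cons_of_mem _ he)) h).imp (List.mem_cons_of_mem _)
        (List.mem_cons_of_mem _)

theorem embed_used {n m j : ℕ} (h : tb (used n m j) 32 = false) :
    (∀ i < j, tb (used n m j) (dg m i) = true) ∧
      (∀ i < j, dg m i < n) ∧ ∀ i < j, ∀ i' < j, dg m i = dg m i' → i = i' := by
  induction j with
  | zero => simp
  | succ j ih =>
    have e : used n m (j + 1) = cond (Nat.ble n (dg m j) || tb (used n m j) (dg m j))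
        (Nat.shiftLeft 1 32) (cond (tb (used n m j) 32) (used n m j)
          (Nat.lor (used n m j) (Nat.shiftLeft 1 (dg m j)))) := rfl
    rw [e] at h ⊢
    cases h1 : (Nat.ble n (dg m j) || tb (used n m j) (dg m j)) with
    | true => rw [h1, cond_true, embed_tb_shift] at h; simp at h
    | false =>
      rw [h1] at h
      cases h2 : tb (used n m j) 32 with
      | true => rw [h2] at h; simp [h2] at h
      | false =>
        obtain ⟨i1, i2, i3⟩ := ih h2
        simp only [Bool.or_eq_false_iff] at h1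
        have h3 : dg m j < n := by
          have := h1.1
          rw [← Bool.not_eq_true, Nat.ble_eq] at this
          omega
        have h4 : ∀ i < j, dg m i ≠ dg m j := fun i hi h' => by
          have := i1 i hi
          rw [h', h1.2] at this
          exact absurd this (by simp)
        refine ⟨fun i hi => ?_, fun i hi => ?_, fun i hi i' hi' h' => ?_⟩
        · simp only [cond_false, embed_tb_lor, embed_tb_shift, Bool.or_eq_true, decide_eq_true_eq]
          rcases Nat.lt_succ_iff_lt_or_eq.1 hi with hi | rfl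
          · exact Or.inl (i1 i hi)
          · exact Or.inr rfl
        · rcases Nat.lt_succ_iff_lt_or_eq.1 hi with hi | rfl
          · exact i2 i hi
          · exact h3
        · rcases Nat.lt_succ_iff_lt_or_eq.1 hi with hi | rfl <;>
            rcases Nat.lt_succ_iff_lt_or_eq.1 hi' with hi' | rfl
          · exact i3 i hi i' hi' h'
          · exact absurd h' (h4 i hi)
          · exact absurd h'.symm (h4 i' hi')
          · rfl

/-- Invariant: if bit `32` of `used n m j` is not set then the bits of `used n m j` are exactly the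
digits `dg m i`, `i < j`, which are different and `< n`. -/
theorem used_sound {n m j : ℕ} (h : tb (used n m j) 32 = false) :
    (∀ i < j, dg m i < n) ∧ ∀ i < j, ∀ i' < j, dg m i = dg m i' → i = i' := by
  exact (embed_used h).2

theorem mkF_sound {rs : List Rsn} (hrs : ∀ r ∈ rs, r.x < 32 ∧ r.y < 32 ∧ r.l < 16) {x y l : ℕ}
    (hy : y < 32) (h : getF (mkF rs) x y l = true) :
    ∃ r ∈ rs, r.l = l ∧ ((r.x = x ∧ r.y = y) ∨ (r.x = y ∧ r.y = x)) := by
  simp only [getF, Bool.and_eq_true, Nat.ble_eq] at h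
  obtain ⟨hl, h⟩ := h
  induction rs with
  | nil => exact absurd h (by simp [mkF, embed_tb_zero])
  | cons r rs ih =>
    change tb (Nat.lor (Nat.lor (Nat.shiftLeft 1 (16 * (32 * r.x + r.y) + r.l))
      (Nat.shiftLeft 1 (16 * (32 * r.y + r.x) + r.l))) (mkF rs)) (16 * (32 * x + y) + l) = true at h
    simp only [embed_tb_lor, embed_tb_shift, Bool.or_eq_true, decide_eq_true_eq] at h
    obtain ⟨h1, h2, h3⟩ := hrs r List.mem_cons_self
    rcases h with (h | h) | h
    · exact ⟨r, List.mem_cons_self, by omega, Or.inl (by omega)⟩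
    · exact ⟨r, List.mem_cons_self, by omega, Or.inr (by omega)⟩
    · obtain ⟨r', hr', h'⟩ := ih (fun e he => hrs e (List.mem_cons_of_mem _ he)) h
      exact ⟨r', List.mem_cons_of_mem _ hr', h'⟩

theorem pe_lt {y l x n b : ℕ} (hx : x < b) (hy : y < b) (hn : n + l ≤ b) :
    ∀ e ∈ pe y l x n, e.1 < b ∧ e.2 < b := by
  induction l generalizing x n with
  | zero =>
    intro e he
    obtain rfl : e = (x, y) := List.mem_singleton.1 he
    exact ⟨hx, hy⟩
  | succ l ih =>
    intro e he
    rcases List.mem_cons.1 (show e ∈ (x, n) :: pe y l n (n + 1) from he) with rfl | he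
    · exact ⟨hx, by simp only; omega⟩
    · exact ih (by omega) (by omega) e he

variable {V : Type*} {G : SimpleGraph V}

theorem embed_pe (g : ℕ → V) (y : ℕ) (R : List V) : ∀ (x n : ℕ),
    (∀ j (hj : j < R.length), g (n + j) = R[j]) → List.IsChain G.Adj (g x :: (R ++ [g y])) →
    ∀ e ∈ pe y R.length x n, G.Adj (g e.1) (g e.2) := by
  induction R with
  | nil =>
    intro x n _ hc e he
    obtain rfl : e = (x, y) := List.mem_singleton.1 he
    simpa using hc
  | cons v R ih =>
    intro x n hg hc e he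
    have hv : g n = v := hg 0 (by simp)
    rw [List.cons_append, List.isChain_cons_cons, ← hv] at hc
    rcases List.mem_cons.1 (show e ∈ (x, n) :: pe y R.length n (n + 1) from he) with rfl | he
    · exact hc.1
    · refine ih n (n + 1) (fun j hj => ?_) hc.2 e he
      have := hg (j + 1) (by simpa using hj)
      rwa [add_assoc, add_comm 1 j]

/-- `g i = f i` for `i < n` and `g (n + j) = R[j]`. -/
theorem Emb.ext [DecidableEq V] {n : ℕ} {es : List (ℕ × ℕ)} {f : ℕ → V} (h : Emb G ⟨n, es⟩ f)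
    (hes : ∀ e ∈ es, e.1 < n ∧ e.2 < n) {x y l : ℕ} (hx : x < n) (hy : y < n)
    (hc : Conn G ((range n).image f) (f x) (f y) l) :
    ∃ g, Emb G ⟨n + l, es ++ pe y l x n⟩ g := by
  obtain ⟨R, rfl, hnd, hX, hch⟩ := hc
  let g : ℕ → V := fun i => if i < n then f i else R.getD (i - n) (f 0)
  have g1 : ∀ i < n, g i = f i := fun i hi => if_pos hi
  have g2 : ∀ j (hj : j < R.length), g (n + j) = R[j] := fun j hj => by
    simp only [g, if_neg (show ¬ n + j < n by omega), Nat.add_sub_cancel_left]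
    exact List.getD_eq_getElem _ _ hj
  have g3 : ∀ i < n, ∀ j < R.length, g i ≠ g (n + j) := fun i hi j hj h' => by
    rw [g1 i hi, g2 j hj] at h'
    exact hX _ (List.getElem_mem hj) (h' ▸ mem_image_of_mem f (mem_range.2 hi))
  refine ⟨g, fun i hi j hj h' => ?_, fun e he => ?_⟩
  · simp only at hi hj
    by_cases h1 : i < n <;> by_cases h2 : j < n
    · rw [g1 i h1, g1 j h2] at h'
      exact h.1 i h1 j h2 h'
    · obtain ⟨j, rfl⟩ := Nat.exists_eq_add_of_le (not_lt.1 h2)
      exact absurd h' (g3 i h1 j (by omega))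
    · obtain ⟨i, rfl⟩ := Nat.exists_eq_add_of_le (not_lt.1 h1)
      exact absurd h'.symm (g3 j h2 i (by omega))
    · obtain ⟨j, rfl⟩ := Nat.exists_eq_add_of_le (not_lt.1 h2)
      obtain ⟨i, rfl⟩ := Nat.exists_eq_add_of_le (not_lt.1 h1)
      rw [g2 i (by omega), g2 j (by omega), hnd.getElem_inj_iff] at h'
      rw [h']
  · rcases List.mem_append.1 he with he | he
    · rw [g1 _ (hes e he).1, g1 _ (hes e he).2]
      exact h.2 e he
    · exact embed_pe g y R x n g2 (by rwa [g1 x hx, g1 y hy]) e he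

theorem embOK_sound {P : Cfg} {n am m : ℕ} (h : embOK P n am m = true) {g : ℕ → V}
    (hinj : ∀ i < n, ∀ j < n, g i = g j → i = j)
    (hadj : ∀ u < 32, ∀ v < 32, tb am (32 * u + v) = true → G.Adj (g u) (g v)) :
    Emb G P fun i => g (dg m i) := by
  simp only [embOK, Bool.and_eq_true, Bool.not_eq_true', List.all_eq_true] at h
  obtain ⟨h1, h2⟩ := used_sound h.1
  exact ⟨fun i hi j hj h' => h2 i hi j hj (hinj _ (h1 i hi) _ (h1 j hj) h'),
    fun e he => hadj _ (dg_lt _ _) _ (dg_lt _ _) (h.2 e he)⟩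

/-- `Emb.ext`, `mkAdj_sound` for both parts of the `lor`, `embOK_sound`. -/
theorem rsnOK_sound [DecidableEq V] {dead : List Cfg} (hd : ∀ P ∈ dead, ∀ g, ¬ Emb G P g) {n : ℕ}
    {es : List (ℕ × ℕ)} {f : ℕ → V} (h : Emb G ⟨n, es⟩ f) (hes : ∀ e ∈ es, e.1 < n ∧ e.2 < n)
    {r : Rsn} (hr : rsnOK dead n (mkAdj es) r = true) :
    ¬ Conn G ((range n).image f) (f r.x) (f r.y) r.l := by
  intro hc
  simp only [rsnOK, Bool.and_eq_true, Nat.ble_eq, Nat.add_eq] at hr
  obtain ⟨⟨⟨⟨⟨h1, h2⟩, -⟩, h4⟩, h5⟩, h6⟩ := hr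
  obtain ⟨g, hg⟩ := h.ext hes h1 h2 hc
  have hs : ∀ {u v : ℕ}, (u, v) ∈ es ++ pe r.y r.l r.x n ∨ (v, u) ∈ es ++ pe r.y r.l r.x n →
      G.Adj (g u) (g v) := fun h' => h'.elim (hg.2 _) fun h' => (hg.2 _ h').symm
  refine hd _ ?_ _ (embOK_sound h6 hg.1 fun u _ v hv h' => hs ?_)
  · rw [List.getD_eq_getElem _ _ h5]
    exact List.getElem_mem h5
  · rw [embed_tb_lor, Bool.or_eq_true] at h'
    rcases h' with h' | h'
    · exact (mkAdj_sound (fun e he => ⟨by have := (hes e he).1; omega, by have := (hes e he).2; omega⟩)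
        hv h').imp (List.mem_append_left _) (List.mem_append_left _)
    · exact (mkAdj_sound (pe_lt (by omega) (by omega) h4) hv h').imp (List.mem_append_right _)
        (List.mem_append_right _)

/-- `Cyc.hasCyc`. -/
theorem cycC_dead {n : ℕ} (hn : 3 ≤ n) (h : ¬ HasCyc G n) (g : ℕ → V) : ¬ Emb G (cycC n) g := by
  intro he
  refine h (Cyc.hasCyc (c := g) ⟨hn, he.1, fun i hi => ?_, he.2 (n - 1, 0) List.mem_cons_self⟩)
  exact he.2 (i, i + 1) (List.mem_cons_of_mem _
    (List.mem_map.2 ⟨i, List.mem_range.2 (by omega), rfl⟩))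

theorem clqC_dead {t : ℕ} (h : OmegaLe G t) (g : ℕ → V) : ¬ Emb G (clqC (t + 1)) g := by
  classical
  intro he
  have ha : ∀ i j, i < j → j < t + 1 → G.Adj (g i) (g j) := fun i j hij hj =>
    he.2 (i, j) (List.mem_flatMap.2 ⟨j, List.mem_range.2 hj,
      List.mem_map.2 ⟨i, List.mem_range.2 hij, rfl⟩⟩)
  have h1 := h ((range (t + 1)).image g) (by
    intro u hu v hv huv
    obtain ⟨i, hi, rfl⟩ := mem_image.1 hu
    obtain ⟨j, hj, rfl⟩ := mem_image.1 hv
    rcases lt_trichotomy i j with h' | rfl | h'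
    · exact ha i j h' (mem_range.1 hj)
    · exact absurd rfl huv
    · exact (ha j i h' (mem_range.1 hi)).symm)
  rw [card_image_of_injOn (s := range (t + 1)) fun i hi j hj h' =>
    he.1 i (mem_range.1 hi) j (mem_range.1 hj) h', card_range] at h1
  omega

/-- Enumerate the clique. -/
theorem emb_of_clq {Q : Finset V} (hQ : Clq G Q) (hne : Q.Nonempty) {es : List (ℕ × ℕ)}
    (hes : ∀ e ∈ es, e.1 < Q.card ∧ e.2 < Q.card ∧ e.1 ≠ e.2) : ∃ g, Emb G ⟨Q.card, es⟩ g := by
  obtain ⟨v₀, -⟩ := hne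
  have hl : Q.toList.length = Q.card := Q.length_toList
  have g1 : ∀ i (hi : i < Q.card), Q.toList.getD i v₀ = Q.toList[i]'(hl ▸ hi) := fun i hi =>
    List.getD_eq_getElem _ _ _
  have hinj : ∀ i < Q.card, ∀ j < Q.card, Q.toList.getD i v₀ = Q.toList.getD j v₀ → i = j :=
    fun i hi j hj h' => by
      rwa [g1 i hi, g1 j hj, Q.nodup_toList.getElem_inj_iff] at h'
  refine ⟨fun i => Q.toList.getD i v₀, hinj, fun e he => ?_⟩
  obtain ⟨h1, h2, h3⟩ := hes e he
  refine hQ _ ?_ _ ?_ fun h' => h3 (hinj _ h1 _ h2 h')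
  · simp only [g1 _ h1]
    exact mem_toList.1 (List.getElem_mem _)
  · simp only [g1 _ h2]
    exact mem_toList.1 (List.getElem_mem _)

end Crest.Agent.R054
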