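import Crest.Agent.R054.Weight
import Crest.Agent.R054.Embed

/-! Row 54: soundness of the checker. -/

set_option autoImplicit false

namespace Crest.Agent.R054

open Finset

variable {V : Type*} [Fintype V] [DecidableEq V] {G : SimpleGraph V} {k t : ℕ}

/-- `mkF_sound`, `rsnOK_sound`, `Conn.symm`, `sel_sound`. -/
theorem stepOK_sound (h : Ctx G k) (hω : OmegaLe G t) (hk : k ≤ 2 * t) {dead : List Cfg}
    (hd : ∀ P ∈ dead, ∀ g, ¬ Emb G P g) {s : Step} (hs : stepOK k t dead s = true) (g : ℕ → V) :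
    ¬ Emb G s.H g := by
  intro hg
  obtain ⟨⟨n, es⟩, am, fm, rs, sel⟩ := s
  simp only [stepOK, Bool.and_eq_true, Nat.ble_eq, Nat.beq_eq, List.all_eq_true,
    Nat.succ_le_iff] at hs
  obtain ⟨⟨⟨⟨⟨⟨⟨h2, h32⟩, hes⟩, rfl⟩, rfl⟩, hrs⟩, hsel⟩, hW⟩ := hs
  have hrs' : ∀ r ∈ rs, r.x < 32 ∧ r.y < 32 ∧ r.l < 16 := by
    intro r hr
    have := hrs r hr
    simp only [rsnOK, Bool.and_eq_true, Nat.ble_eq, Nat.succ_le_iff] at this
    omega
  have := sel_sound h hω hk h2 hg.1 (F := getF (mkF rs)) (fun x _ y hy l hF hc => by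
    obtain ⟨r, hr, rfl, ⟨rfl, rfl⟩ | ⟨rfl, rfl⟩⟩ := mkF_sound hrs' (lt_of_lt_of_le hy h32) hF
    · exact rsnOK_sound hd hg hes (hrs r hr) hc
    · exact rsnOK_sound hd hg hes (hrs r hr) hc.symm) hsel
  omega

/-- Induction on the steps; `emb_of_clq` at the end. -/
theorem certOK_sound (h : Ctx G k) {Q : Finset V} (hQ : Clq G Q) (hω : OmegaLe G Q.card)
    (hk : k ≤ 2 * Q.card) {steps : List Step} {dead : List Cfg}
    (hd : ∀ P ∈ dead, ∀ g, ¬ Emb G P g) (hs : certOK k Q.card steps dead = true) : False := by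
  induction steps generalizing dead with
  | nil => exact Bool.false_ne_true hs
  | cons s l ih =>
    change (stepOK k Q.card dead s && cond l.isEmpty
      (Nat.beq s.H.n Q.card && (s.H.es.all fun e => not (Nat.beq e.1 e.2)))
      (certOK k Q.card l (dead ++ [s.H]))) = true at hs
    rw [Bool.and_eq_true] at hs
    obtain ⟨h1, h2⟩ := hs
    have hdead := stepOK_sound h hω hk hd h1
    cases hl : l.isEmpty
    · rw [hl, cond_false] at h2
      refine ih (fun P hP => ?_) h2
      rcases List.mem_append.1 hP with hP | hP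
      · exact hd P hP
      · rw [List.mem_singleton.1 hP]; exact hdead
    · rw [hl, cond_true] at h2
      obtain ⟨⟨n, es⟩, am, fm, rs, sel⟩ := s
      simp only [stepOK, Bool.and_eq_true, Nat.ble_eq, Nat.beq_eq, List.all_eq_true,
        Nat.succ_le_iff] at h1
      obtain ⟨⟨⟨⟨⟨⟨⟨h3, -⟩, hes⟩, -⟩, -⟩, -⟩, -⟩, -⟩ := h1
      simp only [Bool.and_eq_true, Nat.beq_eq, List.all_eq_true, Bool.not_eq_true'] at h2
      obtain ⟨rfl, h4⟩ := h2
      obtain ⟨g, hg⟩ := emb_of_clq hQ (card_pos.1 (by omega)) (es := es)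
        (fun e he => ⟨(hes e he).1, (hes e he).2, Nat.ne_of_beq_eq_false (h4 e he)⟩)
      exact hdead g hg

theorem cert_false (h : Ctx G k) {Q : Finset V} (hQ : Clq G Q) (hω : OmegaLe G Q.card)
    (hk : k ≤ 2 * Q.card) {steps : List Step}
    (hs : certOK k Q.card steps [cycC (k + 1), clqC (Q.card + 1)] = true) : False := by
  refine certOK_sound h hQ hω hk ?_ hs
  intro P hP g
  simp only [List.mem_cons, List.not_mem_nil, or_false] at hP
  rcases hP with rfl | rfl
  · exact cycC_dead (by have := h.k3; omega) h.nocyc g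
  · exact clqC_dead hω g

end Crest.Agent.R054
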