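import Crest.Agent.R054.Defs

/-! Row 54: paths of prescribed length in a cycle with a chord. -/

set_option autoImplicit false

namespace Crest.Agent.R054

open Finset

variable {V γ : Type*} {G : SimpleGraph V}

/-- There is a path with `l` edges among the vertices of the cycle whose ends have different
colours. -/
def BiPath (G : SimpleGraph V) (N : ℕ) (c : ℕ → V) (χ : V → γ) (l : ℕ) : Prop :=
  ∃ f : ℕ → ℕ, (∀ i ≤ l, f i < N) ∧ (∀ i ≤ l, ∀ j ≤ l, f i = f j → i = j) ∧
    (∀ i < l, G.Adj (c (f i)) (c (f (i + 1)))) ∧ χ (c (f 0)) ≠ χ (c (f l))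

/-- The cycle indexed by the integers. -/
def chordG (N : ℕ) (c : ℕ → V) (x : ℤ) : V := c (x % N).toNat

theorem chord_lt {N : ℕ} (hN : 0 < N) (x : ℤ) : (x % N).toNat < N := by
  have h1 := Int.emod_nonneg x (show (N : ℤ) ≠ 0 by omega)
  have h2 := Int.emod_lt_of_pos x (show (0 : ℤ) < N by omega)
  omega

theorem chordG_nat {N : ℕ} (c : ℕ → V) {i : ℕ} (hi : i < N) : chordG N c i = c i := by
  unfold chordG
  rw [Int.emod_eq_of_lt (by omega) (by omega), Int.toNat_natCast]

theorem chordG_add {N : ℕ} (c : ℕ → V) (x : ℤ) : chordG N c (x + N) = chordG N c x := by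
  unfold chordG
  rw [Int.add_emod_right]

theorem chordG_adj {N : ℕ} {c : ℕ → V} (hc : Cyc G N c) (x : ℤ) :
    G.Adj (chordG N c x) (chordG N c (x + 1)) := by
  have h3 := hc.three
  have h1 := Int.emod_nonneg x (show (N : ℤ) ≠ 0 by omega)
  have h2 := Int.emod_lt_of_pos x (show (0 : ℤ) < N by omega)
  have e : (x + 1) % N = (x % N + 1) % N := by rw [Int.emod_add_emod]
  unfold chordG
  rw [e]
  obtain ⟨i, hi⟩ : ∃ i : ℕ, x % N = i := ⟨(x % N).toNat, by omega⟩
  rw [hi] at h2 ⊢
  by_cases h : i + 1 < N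
  · rw [Int.emod_eq_of_lt (by omega) (by omega)]
    exact hc.adj i h
  · have : (i : ℤ) + 1 = N := by omega
    rw [this, Int.emod_self, Int.toNat_natCast, show i = N - 1 by omega]
    exact hc.close

theorem chord_path {N : ℕ} {c : ℕ → V} (hc : Cyc G N c) (χ : V → γ) {l : ℕ}
    (hno : ¬ BiPath G N c χ l) (F : ℕ → ℤ)
    (hinj : ∀ i ≤ l, ∀ j ≤ l, F i % N = F j % N → i = j)
    (hadj : ∀ i < l, G.Adj (chordG N c (F i)) (chordG N c (F (i + 1)))) :
    χ (chordG N c (F 0)) = χ (chordG N c (F l)) := by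
  have h3 := hc.three
  by_contra h
  refine hno ⟨fun i => (F i % N).toNat, fun i _ => chord_lt (by omega) _, fun i hi j hj e => ?_,
    hadj, h⟩
  have h1 := Int.emod_nonneg (F i) (show (N : ℤ) ≠ 0 by omega)
  have h2 := Int.emod_nonneg (F j) (show (N : ℤ) ≠ 0 by omega)
  exact hinj i hi j hj (by simp only at e; omega)

theorem chord_mod {N : ℕ} {x y : ℤ} (h : x % N = y % N) (h1 : x - y < N) (h2 : y - x < N) :
    x = y := by
  obtain ⟨k, hk⟩ := Int.dvd_of_emod_eq_zero (Int.emod_eq_emod_iff_emod_sub_eq_zero.1 h)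
  have : k = 0 := by
    rcases lt_trichotomy k 0 with h | h | h
    · nlinarith
    · exact h
    · nlinarith
  subst this
  omega

/-- Paths through the chord. -/
theorem chord_two {N : ℕ} {c : ℕ → V} (hc : Cyc G N c) (χ : V → γ) {l : ℕ}
    (hno : ¬ BiPath G N c χ l) {r : ℕ} (hrN : r < N) (hch : G.Adj (c 0) (c r)) (s t : ℤ)
    (hs : s = 1 ∨ s = -1) (ht : t = 1 ∨ t = -1) (a b : ℕ) (hab : a + b + 1 = l)
    (hd : ∀ i j : ℕ, i ≤ a → j ≤ b → (s * i) % N ≠ (r + t * j) % N) (hl : l < N) :
    χ (chordG N c (s * a)) = χ (chordG N c (r + t * b)) := by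
  have := chord_path hc χ hno (fun i => if i ≤ a then s * ((a - i : ℕ) : ℤ) else
    r + t * ((i - a - 1 : ℕ) : ℤ)) (fun i hi j hj e => ?_) (fun i hi => ?_)
  · simpa [show ¬ l ≤ a by omega, show l - a - 1 = b by omega] using this
  · by_cases h1 : i ≤ a <;> by_cases h2 : j ≤ a <;> simp only [h1, h2, if_true, if_false] at e
    · have := chord_mod e (by rcases hs with rfl | rfl <;> omega) (by
        rcases hs with rfl | rfl <;> omega)
      rcases hs with rfl | rfl <;> omega
    · exact (hd _ _ (by omega) (by omega) e).elim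
    · exact (hd _ _ (by omega) (by omega) e.symm).elim
    · have := chord_mod e (by rcases ht with rfl | rfl <;> omega) (by
        rcases ht with rfl | rfl <;> omega)
      rcases ht with rfl | rfl <;> omega
  · by_cases h1 : i + 1 ≤ a
    · simp only [h1, show i ≤ a by omega, if_true]
      rcases hs with rfl | rfl
      · have := (chordG_adj hc (1 * ((a - (i + 1) : ℕ) : ℤ))).symm
        rwa [show 1 * ((a - (i + 1) : ℕ) : ℤ) + 1 = 1 * ((a - i : ℕ) : ℤ) by omega] at this
      · have := chordG_adj hc (-1 * ((a - i : ℕ) : ℤ))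
        rwa [show -1 * ((a - i : ℕ) : ℤ) + 1 = -1 * ((a - (i + 1) : ℕ) : ℤ) by omega] at this
    · by_cases h2 : i ≤ a
      · simp only [h1, h2, if_true, if_false]
        rw [show a - i = 0 by omega, show i + 1 - a - 1 = 0 by omega]
        have e0 := chordG_nat c (show 0 < N by omega)
        have e1 := chordG_nat c hrN
        simp only [Nat.cast_zero, mul_zero, add_zero] at e0 ⊢
        rwa [e0, e1]
      · simp only [h1, h2, if_false]
        rcases ht with rfl | rfl
        · have := chordG_adj hc (r + 1 * ((i - a - 1 : ℕ) : ℤ))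
          rwa [show r + 1 * ((i - a - 1 : ℕ) : ℤ) + 1 = r + 1 * ((i + 1 - a - 1 : ℕ) : ℤ) by
            omega] at this
        · have := (chordG_adj hc (r + -1 * ((i + 1 - a - 1 : ℕ) : ℤ))).symm
          rwa [show r + -1 * ((i + 1 - a - 1 : ℕ) : ℤ) + 1 = r + -1 * ((i - a - 1 : ℕ) : ℤ) by
            omega] at this

theorem chord_per_mul {κ : ℤ → γ} {e : ℤ} (he : ∀ x, κ (x + e) = κ x) (k x : ℤ) :
    κ (x + e * k) = κ x := by
  induction k using Int.induction_on generalizing x with
  | zero => simp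
  | succ k ih => rw [mul_add, mul_one, ← add_assoc, he, ih]
  | pred k ih => rw [← he, show x + e * (-k - 1) + e = x + e * -k by ring, ih]

theorem chord_ext {f g : ℤ → γ} {e : ℤ} (h0 : 0 < e) (hf : ∀ x, f (x + e) = f x)
    (hg : ∀ x, g (x + e) = g x) (lo : ℤ) (h : ∀ x, lo ≤ x → x < lo + e → f x = g x) (x : ℤ) :
    f x = g x := by
  have h1 := Int.emod_nonneg (x - lo) h0.ne'
  have h2 := Int.emod_lt_of_pos (x - lo) h0
  have h3 := Int.emod_add_mul_ediv (x - lo) e
  have : x = lo + (x - lo) % e + e * ((x - lo) / e) := by omega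
  rw [this, chord_per_mul hf, chord_per_mul hg]
  exact h _ (by omega) (by omega)

/-- Let `κ x = χ (c (x mod N))` for integers `x`.  Arcs of the cycle show that `l` is a period of
`κ`; let `e ≥ 1` be the least period, so `e ∣ l`, `e ∣ N`, `e ≥ 2`, `e ≤ l`, `e ≤ N - l`.
If `r < e`: the paths `-a, …, 0, r, …, r + b` (`a + b + 1 = l ≤ N - r`) give `κ (-a) = κ (r - 1 - a)`
for `0 ≤ a < l`, so `r - 1` is a period with `0 < r - 1 < e`.  If `N - r < e` the same with the
cycle reversed (paths `a, …, 0, r, r - 1, …, r - b`).  Otherwise the paths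
`a, a - 1, …, 0, r, …, r + b` (`a < r`, `b < N - r`) give `κ a = κ (r - 1 - a)` for
`min (r, l, N - l, N - r) ≥ e` consecutive values of `a`, hence for all, and the paths
`-a, …, 0, r, r - 1, …, r - b` (`a < N - r`, `b < r`) give `κ x = κ (r + 1 - x)` for all `x`; so `2` is
a period, `e = 2`, and `κ 0 = κ (r - 1)` makes `r` odd. -/
theorem chord_core {N : ℕ} {c : ℕ → V} (hc : Cyc G N c) (χ : V → γ) {l : ℕ} (h1 : 1 ≤ l)
    (h2 : l < N) (hnc : ∃ i < N, ∃ j < N, χ (c i) ≠ χ (c j)) {r : ℕ} (hr : 2 ≤ r)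
    (hrN : r + 2 ≤ N) (hch : G.Adj (c 0) (c r)) (hno : ¬ BiPath G N c χ l) :
    Even N ∧ Even l ∧ Odd r ∧ χ (c 0) = χ (c 2) := by
  classical
  set κ : ℤ → γ := fun x => χ (chordG N c x) with hκ
  have pN : ∀ x, κ (x + N) = κ x := fun x => by simp only [hκ, chordG_add]
  have pl : ∀ x, κ (x + l) = κ x := fun x =>
    (chord_path hc χ hno (fun i => x + i) (fun i hi j hj e => by
      have := chord_mod e (by omega) (by omega)
      omega) (fun i _ => by
        have := chordG_adj hc (x + i)
        rwa [show x + i + 1 = x + ((i + 1 : ℕ) : ℤ) by omega] at this)).symm.trans (by simp [hκ])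
  have hex : ∃ e : ℕ, 0 < e ∧ ∀ x, κ (x + e) = κ x := ⟨l, h1, pl⟩
  obtain ⟨e, ⟨he0, pe⟩, hmin⟩ : ∃ e : ℕ, (0 < e ∧ ∀ x, κ (x + e) = κ x) ∧
      ∀ e' : ℕ, e' < e → ¬ (0 < e' ∧ ∀ x, κ (x + e') = κ x) :=
    ⟨Nat.find hex, Nat.find_spec hex, fun e' h => Nat.find_min hex h⟩
  have hdvd : ∀ p : ℕ, (∀ x, κ (x + p) = κ x) → e ∣ p := by
    intro p hp
    by_contra h
    refine hmin (p % e) (Nat.mod_lt _ he0) ⟨Nat.pos_of_ne_zero fun h0 =>
      h (Nat.dvd_of_mod_eq_zero h0), fun x => ?_⟩
    have h4 := Nat.mod_add_div p e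
    rw [← chord_per_mul pe (p / e : ℕ) (x + (p % e : ℕ)), ← hp x]
    congr 1
    rw [add_assoc]
    congr 1
    exact_mod_cast h4
  have dl := hdvd l pl
  have dN := hdvd N pN
  have el : e ≤ l := Nat.le_of_dvd h1 dl
  have eNl : e ≤ N - l := Nat.le_of_dvd (by omega) (Nat.dvd_sub dN dl)
  have n1 : ¬ ∀ x, κ (x + 1) = κ x := by
    intro h
    obtain ⟨i, hi, j, hj, hij⟩ := hnc
    have a1 := chord_per_mul h i 0
    have a2 := chord_per_mul h j 0
    simp only [hκ, zero_add, one_mul, chordG_nat c hi, chordG_nat c hj] at a1 a2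
    exact hij (a1.trans a2.symm)
  have e2 : 2 ≤ e := by
    by_contra h
    have : e = 1 := by omega
    subst this
    exact n1 (by simpa using pe)
  have he0' : (0 : ℤ) < e := by omega
  have pl' : ∀ x, κ (x - l) = κ x := fun x => by rw [← pl (x - l)]; simp
  have pe' : ∀ x, κ (x - e) = κ x := fun x => by rw [← pe (x - e)]; simp
  have two := fun s t hs ht a b hab hd =>
    chord_two hc χ hno (show r < N by omega) hch s t hs ht a b hab hd h2
  have hre : e ≤ r := by
    by_contra h
    refine hmin (r - 1) (by omega) ⟨by omega, chord_ext he0' (fun x => ?_) pe (1 - e) ?_⟩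
    · rw [add_right_comm, pe]
    · intro x hx1 hx2
      have := two (-1) 1 (Or.inr rfl) (Or.inl rfl) (-x).toNat (l - 1 - (-x).toNat) (by omega)
        fun i j hi hj h => by
          have := chord_mod h (by omega) (by omega)
          omega
      rw [← pl]
      refine Eq.trans ?_ (this.symm.trans ?_)
      · show κ _ = κ _
        congr 1; omega
      · show κ _ = κ _
        congr 1; omega
  have hrN' : e ≤ N - r := by
    by_contra h
    refine hmin (N - r - 1) (by omega) ⟨by omega, fun x => ?_⟩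
    have key : ∀ x, κ (x + (r + 1)) = κ x := by
      refine chord_ext he0' (fun x => ?_) pe 0 ?_
      · rw [add_right_comm, pe]
      · intro x hx1 hx2
        have := two 1 (-1) (Or.inl rfl) (Or.inr rfl) x.toNat (l - 1 - x.toNat) (by omega)
          fun i j hi hj h => by
            have := chord_mod h (by omega) (by omega)
            omega
        rw [← pl']
        refine Eq.trans ?_ (this.symm.trans ?_)
        · show κ _ = κ _
          congr 1; omega
        · show κ _ = κ _
          congr 1; omega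
    rw [← key, ← pN x]
    congr 1; omega
  have hB : ∀ x, κ x = κ (r - 1 - x) := by
    refine chord_ext he0' pe (fun x => ?_) (max 0 ((l : ℤ) - N + r)) ?_
    · rw [← pe' (r - 1 - x)]; congr 1; ring
    · intro x hx1 hx2
      have := two 1 1 (Or.inl rfl) (Or.inl rfl) x.toNat (l - 1 - x.toNat) (by omega)
        fun i j hi hj h => by
          have := chord_mod h (by omega) (by omega)
          omega
      rw [← pl (r - 1 - x)]
      refine Eq.trans ?_ (this.trans ?_)
      · show κ _ = κ _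
        congr 1; omega
      · show κ _ = κ _
        congr 1; omega
  have hC : ∀ x, κ (-x) = κ (r + 1 + x) := by
    refine chord_ext he0' (fun x => ?_) (fun x => ?_) (max 0 ((l : ℤ) - r)) ?_
    · rw [← pe' (-x)]; congr 1; ring
    · rw [← add_assoc, pe]
    · intro x hx1 hx2
      have := two (-1) (-1) (Or.inr rfl) (Or.inr rfl) x.toNat (l - 1 - x.toNat) (by omega)
        fun i j hi hj h => by
          rw [← Int.add_emod_right] at h
          have := chord_mod h (by omega) (by omega)
          omega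
      rw [← pl' (r + 1 + x)]
      refine Eq.trans ?_ (this.trans ?_)
      · show κ _ = κ _
        congr 1; omega
      · show κ _ = κ _
        congr 1; omega
  have p2 : ∀ x, κ (x + (2 : ℕ)) = κ x := fun x => by
    have := hC (-(x + 2))
    rw [neg_neg] at this
    rw [hB x, show x + (2 : ℕ) = x + 2 by rfl, this]
    congr 1; ring
  have ee : e = 2 := le_antisymm (Nat.le_of_dvd two_pos (hdvd 2 p2)) e2
  subst ee
  refine ⟨even_iff_two_dvd.2 dN, even_iff_two_dvd.2 dl, ?_, ?_⟩
  · rw [← Nat.not_even_iff_odd]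
    rintro ⟨k, hk⟩
    have h01 : κ 0 = κ 1 := by
      rw [hB 0, ← chord_per_mul p2 (k - 1) 1]
      congr 1; push_cast; omega
    refine n1 (chord_ext he0' (fun x => ?_) p2 0 fun x hx1 hx2 => ?_)
    · rw [add_right_comm, p2]
    · obtain rfl | rfl : x = 0 ∨ x = 1 := by omega
      · simpa using h01.symm
      · rw [← h01, ← p2 0]; rfl
  · have := p2 0
    have a0 := chordG_nat c (show 0 < N by omega)
    have a2 := chordG_nat c (show 2 < N by omega)
    simp only [hκ, zero_add, a2] at this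
    rw [this, ← a0]; rfl

/-- For a chord `c i ~ c j`, `i < j`, apply `chord_core` to the rotated cycle
`n ↦ c ((n + i) % N)`. -/
theorem chord {N : ℕ} {c : ℕ → V} (hc : Cyc G N c) (χ : V → γ) {l : ℕ} (h1 : 1 ≤ l)
    (h2 : l < N) (hnc : ∃ i < N, ∃ j < N, χ (c i) ≠ χ (c j)) {r : ℕ} (hr : 2 ≤ r)
    (hrN : r + 2 ≤ N) (hch : G.Adj (c 0) (c r)) (hno : ¬ BiPath G N c χ l) :
    Even l ∧ χ (c 0) = χ (c 2) ∧
      ∀ i < N, ∀ j < N, G.Adj (c i) (c j) → i % 2 ≠ j % 2 := by
  obtain ⟨eN, el, -, e02⟩ := chord_core hc χ h1 h2 hnc hr hrN hch hno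
  refine ⟨el, e02, ?_⟩
  have main : ∀ i j, i < j → j < N → G.Adj (c i) (c j) → i % 2 ≠ j % 2 := by
    intro i j hij hj hadj
    obtain ⟨k, hk⟩ := eN
    by_cases a1 : j = i + 1
    · omega
    by_cases a2 : j - i + 2 ≤ N
    swap
    · omega
    have hm : ∀ n < N, (n + i) % N = if n + i < N then n + i else n + i - N := by
      intro n hn
      split_ifs with h
      · exact Nat.mod_eq_of_lt h
      · rw [Nat.mod_eq_sub_mod (by omega), Nat.mod_eq_of_lt (by omega)]
    have hcg : ∀ n : ℕ, c ((n + i) % N) = chordG N c (n + i) := by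
      intro n
      unfold chordG
      rw [← Nat.cast_add, ← Int.natCast_mod, Int.toNat_natCast]
    have hinj : ∀ a < N, ∀ b < N, (a + i) % N = (b + i) % N → a = b := by
      intro a ha b hb e
      rw [hm a ha, hm b hb] at e
      split_ifs at e <;> omega
    have hc' : Cyc G N fun n => c ((n + i) % N) := by
      refine ⟨hc.three, fun a ha b hb e => hinj a ha b hb
        (hc.inj _ (Nat.mod_lt _ (by omega)) _ (Nat.mod_lt _ (by omega)) e), fun a _ => ?_, ?_⟩
      · rw [hcg, hcg]
        have := chordG_adj hc (a + i)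
        rwa [show (a : ℤ) + i + 1 = ((a + 1 : ℕ) : ℤ) + i by omega] at this
      · rw [hcg, hcg]
        have := chordG_adj hc (((N - 1 : ℕ) : ℤ) + i)
        rwa [show ((N - 1 : ℕ) : ℤ) + i + 1 = ((0 : ℕ) : ℤ) + i + N by omega, chordG_add] at this
    have hsurj : ∀ a < N, ∃ b < N, (b + i) % N = a := by
      intro a ha
      by_cases h : i ≤ a
      · exact ⟨a - i, by omega, by rw [hm _ (by omega)]; split_ifs <;> omega⟩
      · exact ⟨a + N - i, by omega, by rw [hm _ (by omega)]; split_ifs <;> omega⟩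
    have := chord_core hc' χ h1 h2 (r := j - i) (by
      obtain ⟨a, ha, b, hb, hab⟩ := hnc
      obtain ⟨a', ha', rfl⟩ := hsurj a ha
      obtain ⟨b', hb', rfl⟩ := hsurj b hb
      exact ⟨a', ha', b', hb', hab⟩) (by omega) a2 (by
        simp only [zero_add, show j - i + i = j by omega, Nat.mod_eq_of_lt hj,
          Nat.mod_eq_of_lt (show i < N by omega)]
        exact hadj) (by
      rintro ⟨f, f1, f2, f3, f4⟩
      exact hno ⟨fun n => (f n + i) % N, fun n _ => Nat.mod_lt _ (by omega),
        fun a ha b hb e => f2 a ha b hb (hinj _ (f1 a ha) _ (f1 b hb) e), f3, f4⟩)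
    obtain ⟨m, hm'⟩ := this.2.2.1
    omega
  intro i hi j hj hadj
  rcases lt_trichotomy i j with h | h | h
  · exact main i j h hj hadj
  · subst h; exact (G.irrefl hadj).elim
  · exact (main j i h hi hadj.symm).symm

end Crest.Agent.R054
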