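import Crest.Agent.R054.Layer

/-! Row 54: the large clique. -/

set_option autoImplicit false

namespace Crest.Agent.R054

open Finset

variable {V : Type*} [Fintype V] [DecidableEq V] {G : SimpleGraph V} {k : ℕ}

/-- alternating partial sums -/
def countO (a : ℕ → ℕ) : ℕ → ℕ
  | 0 => a 0
  | 1 => a 1
  | i + 2 => countO a i + a (i + 2)

/-- Let `d = k / 2 ≥ 3`, fix `z`, let `I j` be a maximum independent subset of `ly j`
(`exists_alpha`; `I 0 = {z}`), `a j` its size, `J 0 = I 0`, `J 1 = I 1`, `J (i + 2) = J i ∪ I (i + 2)`.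
`J i` is independent (`ly_adj`), contained in `bl i`, and `O i = |J i|` satisfies
`O i + O (i + 1) = ∑_{j ≤ i + 1} a j`.  For `i + 1 ≤ d` and `O i ≥ 1`, `exp`, `card_bl` and `layer` give
`k O i + 1 ≤ |bl (i + 1)| ≤ 1 + d (O i + O (i + 1) - 1)`, with strict inequality if `k = 2 d`
(`layer_one`).  Hence `O (i + 1) ≥ O i + 2` and `O i ≥ 2 i + 1`; if `k = 2 d` then `O d > k`.  If
`k = 2 d + 1` then `d O d ≥ (d + 1) O (d - 1) + d` with `O (d - 1) ≥ 2 d - 1 > d`, so
`O d ≥ O (d - 1) + 3 > k`. -/
theorem Ctx.big (h : Ctx G k) (hk : 6 ≤ k) : ¬ OmegaLe G (k / 2) := by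
  intro hω
  obtain ⟨z⟩ := h.ne
  obtain ⟨d, hd⟩ : ∃ d, d = k / 2 := ⟨_, rfl⟩
  rw [← hd] at hω
  have hd3 : 3 ≤ d := by omega
  choose I hI1 hI2 hI3 using fun j => exists_alpha G (ly G z j)
  set a : ℕ → ℕ := fun j => (I j).card with ha
  have ha0 : a 0 = 1 := by
    have h1 : a 0 ≤ 1 := by simpa [ly] using card_le_card (hI1 0)
    have h2 : 1 ≤ a 0 := hI3 0 {z} (by simp [ly]) (ind_singleton z)
    omega
  have hJ : ∀ i, ∃ J : Finset V, Ind G J ∧ (∀ v ∈ J, ∃ j ≤ i, v ∈ ly G z j) ∧
      J.card = countO a i := by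
    intro i
    induction i using Nat.twoStepInduction with
    | zero => exact ⟨I 0, hI2 0, fun v hv => ⟨0, le_rfl, hI1 0 hv⟩, rfl⟩
    | one => exact ⟨I 1, hI2 1, fun v hv => ⟨1, le_rfl, hI1 1 hv⟩, rfl⟩
    | more i ih _ =>
      obtain ⟨J, h1, h2, h3⟩ := ih
      have hn : ∀ u ∈ J, ∀ v ∈ I (i + 2), ¬ G.Adj u v := fun u hu v hv huv => by
        obtain ⟨j, hj, hu'⟩ := h2 u hu
        have := ly_adj hu' (hI1 _ hv) huv
        omega
      refine ⟨J ∪ I (i + 2), fun u hu v hv => ?_, fun v hv => ?_, ?_⟩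
      · rcases mem_union.1 hu with hu | hu <;> rcases mem_union.1 hv with hv | hv
        · exact h1 u hu v hv
        · exact hn u hu v hv
        · exact fun huv => hn v hv u hu huv.symm
        · exact hI2 _ u hu v hv
      · rcases mem_union.1 hv with hv | hv
        · obtain ⟨j, hj, hv'⟩ := h2 v hv
          exact ⟨j, by omega, hv'⟩
        · exact ⟨i + 2, le_rfl, hI1 _ hv⟩
      · rw [card_union_of_disjoint, h3]
        · rfl
        · rw [disjoint_left]
          intro v hv hv'
          obtain ⟨j, hj, hv''⟩ := h2 v hv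
          have := ly_unique hv'' (hI1 _ hv')
          omega
  have hexp : ∀ i, 1 ≤ countO a i → k * countO a i + 1 ≤ (bl G z (i + 1)).card := by
    intro i hi
    obtain ⟨J, h1, h2, h3⟩ := hJ i
    rw [← h3] at hi ⊢
    refine (h.exp J (card_pos.1 hi) h1).trans (card_le_card fun v hv => ?_)
    have hsub : J ⊆ bl G z i := fun u hu => by
      obtain ⟨j, hj, hu'⟩ := h2 u hu
      exact bl_mono hj (ly_subset j hu')
    show v ∈ nb G (bl G z i)
    rcases mem_nb.1 hv with hv | ⟨u, hu, huv⟩
    · exact mem_nb.2 (Or.inl (hsub hv))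
    · exact mem_nb.2 (Or.inr ⟨u, hsub hu, huv⟩)
  obtain ⟨e, he⟩ : ∃ e, e + k = 2 * d + 1 := ⟨2 * d + 1 - k, by omega⟩
  have hbl : ∀ i, i + 1 ≤ d →
      (bl G z (i + 1)).card + d + e ≤ 1 + d * (countO a i + countO a (i + 1)) := by
    intro i
    induction i with
    | zero =>
      intro _
      have h1 : (bl G z (0 + 1)).card = 1 + (ly G z 1).card := by
        rw [card_bl]; simp [sum_range_succ, ly]
      have h2 : (ly G z 1).card + e ≤ d * a 1 := by
        by_cases hk2 : k ≤ 2 * d
        · have := h.layer_one hd3 hk2 hω z (hI3 1)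
          simp only [ha]
          omega
        · have := h.layer hd3 (by omega) hω z le_rfl (by omega) (hI3 1)
          simp only [ha]
          omega
      rw [h1]
      show _ ≤ 1 + d * (a 0 + a 1)
      rw [ha0, mul_add]
      omega
    | succ i ih =>
      intro hi
      have h1 : (bl G z (i + 1 + 1)).card = (bl G z (i + 1)).card + (ly G z (i + 2)).card := by
        rw [card_bl, card_bl, sum_range_succ]
      have h2 : (ly G z (i + 2)).card ≤ d * a (i + 2) :=
        h.layer hd3 (by omega) hω z (by omega) (by omega) (hI3 (i + 2))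
      have h3 := ih (by omega)
      rw [h1]
      show _ ≤ 1 + d * (countO a (i + 1) + (countO a i + a (i + 2)))
      simp only [mul_add] at h3 ⊢
      omega
  have key : ∀ i, i + 1 ≤ d → 1 ≤ countO a i →
      k * countO a i + d + e ≤ d * countO a i + d * countO a (i + 1) := fun i hi h1 => by
    have h2 := hexp i h1
    have h3 := hbl i hi
    rw [mul_add] at h3
    omega
  have hlow : ∀ i, i ≤ d → 2 * i + 1 ≤ countO a i := by
    intro i
    induction i with
    | zero => intro _; show 1 ≤ a 0; omega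
    | succ i ih =>
      intro hi
      have h1 := ih (by omega)
      have h2 := key i hi (by omega)
      have h3 : countO a i + 2 ≤ countO a (i + 1) := by
        by_contra hc
        have h4 : d * countO a (i + 1) ≤ d * (countO a i + 1) := Nat.mul_le_mul_left _ (by omega)
        have h5 : k = 2 * d ∧ e = 1 ∨ k = 2 * d + 1 ∧ e = 0 := by omega
        rcases h5 with ⟨h5, h6⟩ | ⟨h5, h6⟩ <;> rw [h5, h6] at h2 <;> nlinarith
      omega
  have hup : countO a d ≤ k := by
    obtain ⟨J, h1, -, h3⟩ := hJ d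
    rw [← h3]
    exact h.alpha J h1
  have h1 := hlow d le_rfl
  have hk' : k = 2 * d + 1 := by omega
  obtain ⟨i, rfl⟩ : ∃ i, d = i + 1 := ⟨d - 1, by omega⟩
  have h2 := hlow i (by omega)
  have h3 := key i le_rfl (by omega)
  have h4 : (i + 1) * countO a (i + 1) ≤ (i + 1) * (countO a i + 2) :=
    Nat.mul_le_mul_left _ (by omega)
  rw [hk'] at h3
  nlinarith

end Crest.Agent.R054
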