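import Mathlib

/-!
Row 54 (cycle versus clique Ramsey numbers): definitions.

`k = m - 1`.  A minimal counterexample is a graph `G` with `Ctx G k`.
-/

set_option autoImplicit false

namespace Crest.Agent.R054

open Finset

variable {V : Type*}

/-- A cycle with `n` vertices (meaningful for `3 ≤ n`), as a list. -/
def HasCyc (G : SimpleGraph V) (n : ℕ) : Prop :=
  ∃ l : List V, l.length = n ∧ l.Nodup ∧ List.IsChain G.Adj (l ++ l.take 1)

/-- A cycle with `N` vertices, as a sequence. -/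
structure Cyc (G : SimpleGraph V) (N : ℕ) (c : ℕ → V) : Prop where
  three : 3 ≤ N
  inj : ∀ i < N, ∀ j < N, c i = c j → i = j
  adj : ∀ i, i + 1 < N → G.Adj (c i) (c (i + 1))
  close : G.Adj (c (N - 1)) (c 0)

/-- Independent finsets. -/
def Ind (G : SimpleGraph V) (I : Finset V) : Prop := ∀ u ∈ I, ∀ v ∈ I, ¬ G.Adj u v

/-- Cliques. -/
def Clq (G : SimpleGraph V) (K : Finset V) : Prop := ∀ u ∈ K, ∀ v ∈ K, u ≠ v → G.Adj u v

/-- The independent subsets of `B` have at most `a` elements. -/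
def AlphaLe (G : SimpleGraph V) (B : Finset V) (a : ℕ) : Prop :=
  ∀ I ⊆ B, Ind G I → I.card ≤ a

/-- The cliques have at most `t` elements. -/
def OmegaLe (G : SimpleGraph V) (t : ℕ) : Prop := ∀ K : Finset V, Clq G K → K.card ≤ t

/-- A path from `x` to `y` with exactly `l` interior vertices, all outside `X`. -/
def Conn (G : SimpleGraph V) (X : Finset V) (x y : V) (l : ℕ) : Prop :=
  ∃ R : List V, R.length = l ∧ R.Nodup ∧ (∀ v ∈ R, v ∉ X) ∧ List.IsChain G.Adj (x :: (R ++ [y]))

variable [Fintype V] [DecidableEq V]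

open Classical in
/-- Closed neighbourhoods. -/
noncomputable def nb (G : SimpleGraph V) (I : Finset V) : Finset V :=
  univ.filter fun v => v ∈ I ∨ ∃ u ∈ I, G.Adj u v

theorem mem_nb {G : SimpleGraph V} {I : Finset V} {v : V} :
    v ∈ nb G I ↔ v ∈ I ∨ ∃ u ∈ I, G.Adj u v := by
  simp [nb]

/-- Minimal counterexamples. -/
structure Ctx (G : SimpleGraph V) (k : ℕ) : Prop where
  k3 : 3 ≤ k
  ne : Nonempty V
  nocyc : ¬ HasCyc G (k + 1)
  alpha : ∀ I : Finset V, Ind G I → I.card ≤ k
  ih : ∀ (B : Finset V) (a : ℕ), B ≠ univ → AlphaLe G B a → B.card ≤ k * a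
  exp : ∀ I : Finset V, I.Nonempty → Ind G I → k * I.card + 1 ≤ (nb G I).card

/-- Balls around `z`. -/
noncomputable def bl (G : SimpleGraph V) (z : V) : ℕ → Finset V
  | 0 => {z}
  | i + 1 => nb G (bl G z i)

/-- Spheres around `z`. -/
noncomputable def ly (G : SimpleGraph V) (z : V) : ℕ → Finset V
  | 0 => {z}
  | i + 1 => bl G z (i + 1) \ bl G z i

/-- The vertices outside `X` that are reached from `z` by at most `i` steps outside `X`. -/
noncomputable def ob (G : SimpleGraph V) (X : Finset V) (z : V) : ℕ → Finset V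
  | 0 => ∅
  | i + 1 => nb G (insert z (ob G X z i)) \ X

/-- The successors `rep i` of the vertices of a maximum clique on an optimal cycle with vertex
set `X`; `p i` and `p' i` are the sizes of the gaps after the `i`-th and the next clique vertex. -/
structure Reps (G : SimpleGraph V) (k t : ℕ) where
  X : Finset V
  rep : ℕ → V
  p : ℕ → ℕ
  p' : ℕ → ℕ
  card : X.card = ∑ i ∈ range t, p i + t
  le : X.card ≤ k
  mem : ∀ i < t, rep i ∈ X
  inj : ∀ i < t, ∀ j < t, rep i = rep j → i = j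
  run : ∀ i < t, ∀ j < t, i ≠ j → ∀ l, 1 ≤ l → l < t → Conn G X (rep i) (rep j) l →
    p i = 0 ∧ p j = 0 ∧ ∃ z : ℕ, z + 2 ≤ l ∧ (∀ h < t, p h = 0 ∨ z + 2 ≤ p h) ∧
      #{h ∈ range t | p h = 0 ∧ p' h = 0} + (if p' i = 0 then 0 else 1) +
        (if p' j = 0 then 0 else 1) ≤ z + 2 ∧
      t + (if p' i = 0 then 0 else 1) + (if p' j = 0 then 0 else 1) ≤
        z + 2 * #{h ∈ range t | p h ≠ 0} + 2
  ins1 : ∀ i < t, p i ≠ 0 → ∃ x ∈ X, (∀ j < t, rep j ≠ x) ∧ ¬ Conn G X (rep i) x 1
  ins2 : ∀ i < t, 2 ≤ p i → ∃ x ∈ X, ∃ y ∈ X, (∀ j < t, rep j ≠ x) ∧ (∀ j < t, rep j ≠ y) ∧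
    ¬ Conn G X x y 1

/-- The vertices of a list of blocks (a clique vertex and the gap after it). -/
def flat {V : Type*} (L : List (V × List V)) : List V := L.flatMap fun b => b.1 :: b.2

/-- The gap sizes. -/
def pat {V : Type*} (L : List (V × List V)) : List ℕ := L.map fun b => b.2.length

/-- A cycle through vertices of `Q`, cut into blocks. -/
structure Sys {V : Type*} (G : SimpleGraph V) (Q : Finset V) (L : List (V × List V)) : Prop where
  fst : ∀ b ∈ L, b.1 ∈ Q
  gap : ∀ b ∈ L, ∀ v ∈ b.2, v ∉ Q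
  nodup : (flat L).Nodup
  chain : List.IsChain G.Adj (flat L ++ (flat L).take 1)

/-- Patterns of systems. -/
def Real {V : Type*} (G : SimpleGraph V) (Q : Finset V) (p : List ℕ) : Prop :=
  ∃ L, Sys G Q L ∧ pat L = p

/-- The number of pairs of consecutive zeros. -/
def zz : List ℕ → ℕ
  | a :: b :: l => (if a = 0 ∧ b = 0 then 1 else 0) + zz (b :: l)
  | _ => 0

/-- The number of nonzero entries. -/
def cnt (p : List ℕ) : ℕ := p.countP fun x => x ≠ 0

/-- `p'` is `p` with some entries replaced by zero. -/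
def Zer (p p' : List ℕ) : Prop := List.Forall₂ (fun x y => y = x ∨ y = 0) p p'

/-- Optimal systems: through all of `Q`, at most `k` vertices, longest, fewest gaps. -/
structure Opt {V : Type*} (G : SimpleGraph V) (Q : Finset V) (k : ℕ) (L : List (V × List V)) :
    Prop where
  sys : Sys G Q L
  len : L.length = Q.card
  le : (pat L).sum + Q.card ≤ k
  opt : ∀ p, Real G Q p → p.length = Q.card → p.sum + Q.card ≤ k →
    p.sum < (pat L).sum ∨ (p.sum = (pat L).sum ∧ cnt (pat L) ≤ cnt p)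

end Crest.Agent.R054
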