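import Crest.Agent.R054.OptRun

/-! Row 54: the successors of the clique vertices. -/

set_option autoImplicit false
set_option linter.unusedSectionVars false

namespace Crest.Agent.R054

open Finset

variable {V : Type*} [Fintype V] [DecidableEq V] {G : SimpleGraph V} {Q : Finset V} {k : ℕ}

omit [Fintype V] in
theorem mkreps_perm {u w : List V} {x : V} (h : (u ++ x :: w).Nodup) :
    (u ++ x :: w).formPerm x = (w ++ u).headD x := by
  have hr : (u ++ x :: w) ~r (x :: (w ++ u)) := List.isRotated_append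
  rw [List.formPerm_eq_of_isRotated h hr]
  have h' := hr.nodup_iff.1 h
  generalize w ++ u = r at h'
  cases r with
  | nil => simp
  | cons y r => simpa using List.formPerm_apply_head x y r h'

theorem mkreps_headD {α : Type*} (w u : List α) (q x : α) :
    (w ++ q :: u).headD x = w.headD q := by
  cases w <;> simp

theorem mkreps_split {α : Type*} (L : List α) {i : ℕ} (hi : i < L.length) :
    ∃ A a C, L = A ++ a :: C ∧ A.length = i :=
  ⟨L.take i, L[i], L.drop (i + 1), by simp, by simp [hi.le]⟩

theorem mkreps_split2 {α : Type*} (L : List α) {i j : ℕ} (hij : i < j) (hj : j < L.length) :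
    ∃ A a B b C, L = A ++ a :: (B ++ b :: C) ∧ A.length = i ∧ A.length + 1 + B.length = j := by
  obtain ⟨A, a, R, rfl, hA⟩ := mkreps_split L (hij.trans hj)
  obtain ⟨B, b, C, rfl, hB⟩ := mkreps_split R (i := j - i - 1) (by simp at hj; omega)
  exact ⟨A, a, B, b, C, rfl, hA, by omega⟩

theorem mkreps_getD {α : Type*} (A R : List α) (n : ℕ) (d : α) :
    (A ++ R).getD (A.length + n) d = R.getD n d := by
  simp [List.getD_eq_getElem?_getD, List.getElem?_append_right]

theorem mkreps_getD0 {α : Type*} (A C : List α) (a d : α) :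
    (A ++ a :: C).getD A.length d = a := by
  simp

theorem mkreps_getD1 {α : Type*} (A B C : List α) (a b d : α) :
    (A ++ a :: (B ++ b :: C)).getD (A.length + 1 + B.length) d = b := by
  have := mkreps_getD0 (A ++ a :: B) C b d
  rw [List.append_assoc, List.cons_append, List.length_append, List.length_cons] at this
  rwa [show A.length + 1 + B.length = A.length + (B.length + 1) by omega]

theorem mkreps_next0 (A B C : List ℕ) :
    (A ++ 0 :: (B ++ 0 :: C)).getD ((A.length + 1) % (A ++ 0 :: (B ++ 0 :: C)).length) 0 =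
      B.headD 0 := by
  rw [Nat.mod_eq_of_lt (by simp), mkreps_getD]
  cases B <;> simp

theorem mkreps_next1 (A B C : List ℕ) :
    (A ++ 0 :: (B ++ 0 :: C)).getD
      ((A.length + 1 + B.length + 1) % (A ++ 0 :: (B ++ 0 :: C)).length) 0 =
      (C ++ A).headD 0 := by
  cases C with
  | nil =>
    have : (A ++ 0 :: (B ++ [0])).length = A.length + 1 + B.length + 1 := by simp; omega
    rw [this, Nat.mod_self]
    cases A <;> simp
  | cons c C =>
    rw [Nat.mod_eq_of_lt (by simp; omega)]
    have := mkreps_getD1 A (B ++ [0]) C 0 c 0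
    simp only [List.append_assoc, List.cons_append, List.nil_append, List.length_append,
      List.length_cons, List.length_nil] at this
    rw [List.cons_append, List.headD_cons]
    exact this

theorem mkreps_sublist {α : Type*} (L : List (α × List α)) :
    (L.map Prod.fst).Sublist (flat L) := by
  induction L with
  | nil => simp
  | cons b L ih =>
    obtain ⟨q, g⟩ := b
    rw [flat_cons, List.map_cons]
    exact (ih.trans (List.sublist_append_right g _)).cons_cons q

theorem mkreps_pat_append {α : Type*} (A B : List (α × List α)) :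
    pat (A ++ B) = pat A ++ pat B := by
  simp [pat]

theorem mkreps_pat_cons {α : Type*} (q : α) (g : List α) (B : List (α × List α)) :
    pat ((q, g) :: B) = g.length :: pat B := by
  simp [pat]

theorem mkreps_pat_length {α : Type*} (A : List (α × List α)) : (pat A).length = A.length := by
  simp [pat]

omit [Fintype V] in
theorem mkreps_rot {A B : List (V × List V)} (h : (flat (A ++ B)).Nodup) :
    (flat (A ++ B)).formPerm = (flat (B ++ A)).formPerm := by
  refine List.formPerm_eq_of_isRotated h ?_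
  rw [flat_append, flat_append]
  exact List.isRotated_append

omit [Fintype V] in
theorem mkreps_mem_rot {A B : List (V × List V)} (v : V) (h : v ∈ flat (B ++ A)) :
    v ∈ (flat (A ++ B)).toFinset := by
  rw [List.mem_toFinset, flat_append, List.mem_append]
  rw [flat_append, List.mem_append] at h
  exact h.symm

omit [Fintype V] in
theorem mkreps_run (hQ : Clq G Q) (hc : ¬ HasCyc G (k + 1)) (hk' : k + 1 ≤ 2 * Q.card)
    {L : List (V × List V)} (hL : Opt G Q k L) (d : V × List V) {i j : ℕ} (hij : i < j)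
    (hj : j < Q.card) {l : ℕ} (h1 : 1 ≤ l) (h2 : l < Q.card)
    (hcon : Conn G (flat L).toFinset ((flat L).formPerm (L.getD i d).1)
      ((flat L).formPerm (L.getD j d).1) l) :
    (pat L).getD i 0 = 0 ∧ (pat L).getD j 0 = 0 ∧ ∃ z : ℕ, z + 2 ≤ l ∧
      (∀ h < Q.card, (pat L).getD h 0 = 0 ∨ z + 2 ≤ (pat L).getD h 0) ∧
      #{h ∈ range Q.card | (pat L).getD h 0 = 0 ∧ (pat L).getD ((h + 1) % Q.card) 0 = 0} +
        (if (pat L).getD ((i + 1) % Q.card) 0 = 0 then 0 else 1) +
        (if (pat L).getD ((j + 1) % Q.card) 0 = 0 then 0 else 1) ≤ z + 2 ∧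
      Q.card + (if (pat L).getD ((i + 1) % Q.card) 0 = 0 then 0 else 1) +
        (if (pat L).getD ((j + 1) % Q.card) 0 = 0 then 0 else 1) ≤
        z + 2 * #{h ∈ range Q.card | (pat L).getD h 0 ≠ 0} + 2 := by
  have hlen := hL.len
  obtain ⟨A, ⟨a, ga⟩, B, ⟨b, gb⟩, C, rfl, rfl, rfl⟩ := mkreps_split2 L hij (hlen ▸ hj)
  have hr : Opt G Q k ((a, ga) :: (B ++ (b, gb) :: (C ++ A))) := by
    have := hL.rot
    simpa only [List.cons_append, List.append_assoc] using this
  have e0 : (flat (A ++ (a, ga) :: (B ++ (b, gb) :: C))).formPerm =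
      (flat ((a, ga) :: (B ++ (b, gb) :: (C ++ A)))).formPerm := by
    have := mkreps_rot hL.sys.nodup
    simpa only [List.cons_append, List.append_assoc] using this
  have hnd := hr.sys.nodup
  have ea : (flat ((a, ga) :: (B ++ (b, gb) :: (C ++ A)))).formPerm a =
      (ga ++ flat B).headD b := by
    rw [flat_cons, flat_append, flat_cons] at hnd ⊢
    have := mkreps_perm (u := []) hnd
    rw [List.nil_append, List.append_nil, ← List.append_assoc, mkreps_headD] at this
    rw [← List.append_assoc, this]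
  have eb : (flat ((a, ga) :: (B ++ (b, gb) :: (C ++ A)))).formPerm b =
      (gb ++ flat (C ++ A)).headD a := by
    rw [flat_cons, flat_append, flat_cons, ← List.append_assoc, ← List.cons_append] at hnd ⊢
    have := mkreps_perm hnd
    rw [mkreps_headD] at this
    exact this
  rw [mkreps_getD0, mkreps_getD1, e0, ea, eb] at hcon
  obtain ⟨rfl, rfl, h3, h4⟩ := hr.run hQ hc hk' (fun v hv => mkreps_mem_rot (A := A) v (by
    simpa only [List.cons_append, List.append_assoc] using hv)) h1 h2 hcon
  have hp : pat (A ++ (a, []) :: (B ++ (b, []) :: C)) = pat A ++ 0 :: (pat B ++ 0 :: pat C) := by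
    simp [pat]
  have ht : Q.card = (pat A ++ 0 :: (pat B ++ 0 :: pat C)).length := by
    rw [← hp, mkreps_pat_length, hlen]
  rw [mkreps_pat_append C A] at h3 h4
  rw [hp, ← mkreps_pat_length A, ← mkreps_pat_length B, ht]
  generalize pat A = a', pat B = b', pat C = c' at h3 h4 ⊢
  rw [mkreps_getD0, mkreps_getD1, mkreps_next0, mkreps_next1, card_getD_ne]
  refine ⟨rfl, rfl, _, h3, fun h hh => ?_, tau_le a' b' c' rfl, ?_⟩
  · have hm : (a' ++ 0 :: (b' ++ 0 :: c')).getD h 0 ∈ a' ++ 0 :: (b' ++ 0 :: c') := by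
      rw [List.getD_eq_getElem _ _ hh]
      exact List.getElem_mem hh
    refine h4 _ ?_
    generalize (a' ++ 0 :: (b' ++ 0 :: c')).getD h 0 = g at hm
    simp only [List.mem_append, List.mem_cons, List.mem_reverse] at hm ⊢
    tauto
  · have h5 := len_le (c' ++ a' ++ 0 :: b'.reverse)
    have e1 : (c' ++ a' ++ 0 :: b'.reverse).headD 0 = (c' ++ a').headD 0 := mkreps_headD _ _ _ _
    have e2 : (c' ++ a' ++ 0 :: b'.reverse).getLastD 0 = b'.headD 0 := by
      cases b' with
      | nil => simp
      | cons x b' =>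
        rw [List.reverse_cons, ← List.cons_append, ← List.append_assoc, List.getLastD_concat,
          List.headD_cons]
    have e3 : cnt (c' ++ a' ++ 0 :: b'.reverse) = cnt (a' ++ 0 :: (b' ++ 0 :: c')) := by
      simp [cnt]
      omega
    have e4 : (c' ++ a' ++ 0 :: b'.reverse).length + 1 = (a' ++ 0 :: (b' ++ 0 :: c')).length := by
      simp
      omega
    rw [e1, e2, e3] at h5
    omega

/-- Take `L` optimal, `X = (flat L).toFinset`, `p i = (pat L).getD i 0`,
`p' i = (pat L).getD ((i + 1) % t) 0`, and `rep i` the cyclic successor in `flat L` of the first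
entry `q i` of the `i`-th block: for `L = A ++ (q, g) :: C`, `|A| = i`, it is
`(g ++ flat (C ++ A)).headD q`.  It is convenient to use `σ = (flat L).formPerm` (or `List.next`),
`rep i = σ (q i)`: `σ` is injective, and for `flat L = a ++ x :: b` one has
`σ x = (b ++ a).headD x`; `σ y` is not a `rep j` if `y ∉ Q`.  `run`: by symmetry (`Conn.symm`)
`i < j`, `L = A ++ (a, ga) :: (B ++ (b, gb) :: C)`; `Opt.rot`, `Opt.run` (with `C ++ A` for `C`),
`tau_le`, `len_le`.  `ins1`: `g = y :: g₂`, `g₁ = [y]`, `x = σ y`.  `ins2`: `g = y₁ :: y₂ :: g₂`,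
`g₁ = [y₁, y₂]`, `x = y₂ = σ y₁`, `y = σ y₂`. -/
theorem exists_reps (hQ : Clq G Q) (hc : ¬ HasCyc G (k + 1)) (h2 : 2 ≤ Q.card) (hk : Q.card ≤ k)
    (hk' : k + 1 ≤ 2 * Q.card) : Nonempty (Reps G k Q.card) := by
  obtain ⟨L, hL⟩ := exists_opt hQ h2 hk
  obtain ⟨q₀, -⟩ : Q.Nonempty := card_pos.1 (by omega)
  have hlen := hL.len
  have hnd := hL.sys.nodup
  have hmem : ∀ i < Q.card, L.getD i (q₀, []) ∈ L := fun i hi => by
    rw [List.getD_eq_getElem _ _ (hlen ▸ hi)]
    exact List.getElem_mem _
  have hQ' : ∀ i < Q.card, (L.getD i (q₀, [])).1 ∈ Q := fun i hi => hL.sys.fst _ (hmem i hi)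
  have hne : ∀ y ∉ Q, ∀ j < Q.card,
      (flat L).formPerm (L.getD j (q₀, [])).1 ≠ (flat L).formPerm y := fun y hy j hj h =>
    hy ((flat L).formPerm.injective h ▸ hQ' j hj)
  refine ⟨{
    X := (flat L).toFinset
    rep := fun i => (flat L).formPerm (L.getD i (q₀, [])).1
    p := fun i => (pat L).getD i 0
    p' := fun i => (pat L).getD ((i + 1) % Q.card) 0
    card := ?_
    le := ?_
    mem := fun i hi => ?_
    inj := fun i hi j hj h => ?_
    run := fun i hi j hj hij l h1 h2 hcon => ?_
    ins1 := fun i hi hp => ?_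
    ins2 := fun i hi hp => ?_ }⟩
  · rw [List.toFinset_card_of_nodup hnd, length_flat, ← hlen, ← sum_getD, mkreps_pat_length]
  · rw [List.toFinset_card_of_nodup hnd, length_flat, hlen]
    exact hL.le
  · exact List.mem_toFinset.2 (List.formPerm_apply_mem_of_mem (hL.mem_flat (hQ' i hi)))
  · have h3 := (flat L).formPerm.injective h
    have h4 : (L.map Prod.fst).Nodup := hnd.sublist (mkreps_sublist L)
    rw [List.getD_eq_getElem _ _ (hlen ▸ hi), List.getD_eq_getElem _ _ (hlen ▸ hj)] at h3
    refine (h4.getElem_inj_iff (hi := by simpa [hlen] using hi) (hj := by simpa [hlen] using hj)).1 ?_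
    simpa using h3
  · rcases lt_or_gt_of_ne hij with hlt | hgt
    · exact mkreps_run hQ hc hk' hL _ hlt hj h1 h2 hcon
    · obtain ⟨k1, k2, z, k3, k4, k5, k6⟩ := mkreps_run hQ hc hk' hL _ hgt hi h1 h2 hcon.symm
      exact ⟨k2, k1, z, k3, k4, by omega, by omega⟩
  · obtain ⟨A, ⟨q, g⟩, C, rfl, rfl⟩ := mkreps_split L (hlen ▸ hi)
    rw [mkreps_pat_append, mkreps_pat_cons, ← mkreps_pat_length A, mkreps_getD0] at hp
    obtain _ | ⟨y, g⟩ := g
    · simp at hp
    have hy : y ∉ Q := hL.sys.gap (q, y :: g) (by simp) y (by simp)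
    have hr : Opt G Q k ((q, [y] ++ g) :: (C ++ A)) := hL.rot
    have hnd' := hr.sys.nodup
    have e0 : (flat (A ++ (q, y :: g) :: C)).formPerm =
        (flat ((q, [y] ++ g) :: (C ++ A))).formPerm := mkreps_rot hnd
    have e1 : (flat ((q, [y] ++ g) :: (C ++ A))).formPerm q = y := by
      rw [flat_cons] at hnd' ⊢
      exact mkreps_perm (u := []) hnd'
    have e2 : (flat ((q, [y] ++ g) :: (C ++ A))).formPerm y = (g ++ flat (C ++ A)).headD q := by
      rw [flat_cons] at hnd' ⊢
      have := mkreps_perm (u := [q]) (x := y) (w := g ++ flat (C ++ A)) hnd'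
      rw [mkreps_headD] at this
      exact this
    refine ⟨(flat (A ++ (q, y :: g) :: C)).formPerm y,
      List.mem_toFinset.2 (List.formPerm_apply_mem_of_mem ?_), hne y hy, ?_⟩
    · simp [flat_append, flat_cons]
    · rw [mkreps_getD0, e0, e1, e2]
      exact hr.ins hQ hc fun v hv => mkreps_mem_rot (A := A) (B := (q, y :: g) :: C) v hv
  · obtain ⟨A, ⟨q, g⟩, C, rfl, rfl⟩ := mkreps_split L (hlen ▸ hi)
    rw [mkreps_pat_append, mkreps_pat_cons, ← mkreps_pat_length A, mkreps_getD0] at hp
    obtain _ | ⟨y, _ | ⟨y', g⟩⟩ := g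
    · simp at hp
    · simp at hp
    have hy : y ∉ Q := hL.sys.gap (q, y :: y' :: g) (by simp) y (by simp)
    have hy' : y' ∉ Q := hL.sys.gap (q, y :: y' :: g) (by simp) y' (by simp)
    have hr : Opt G Q k ((q, [y, y'] ++ g) :: (C ++ A)) := hL.rot
    have hnd' := hr.sys.nodup
    have e0 : (flat (A ++ (q, y :: y' :: g) :: C)).formPerm =
        (flat ((q, [y, y'] ++ g) :: (C ++ A))).formPerm := mkreps_rot hnd
    have e1 : (flat ((q, [y, y'] ++ g) :: (C ++ A))).formPerm y = y' := by
      rw [flat_cons] at hnd' ⊢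
      exact mkreps_perm (u := [q]) (x := y) (w := y' :: (g ++ flat (C ++ A))) hnd'
    have e2 : (flat ((q, [y, y'] ++ g) :: (C ++ A))).formPerm y' =
        (g ++ flat (C ++ A)).headD q := by
      rw [flat_cons] at hnd' ⊢
      have := mkreps_perm (u := [q, y]) (x := y') (w := g ++ flat (C ++ A)) hnd'
      rw [mkreps_headD] at this
      exact this
    refine ⟨(flat (A ++ (q, y :: y' :: g) :: C)).formPerm y,
      List.mem_toFinset.2 (List.formPerm_apply_mem_of_mem ?_),
      (flat (A ++ (q, y :: y' :: g) :: C)).formPerm y',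
      List.mem_toFinset.2 (List.formPerm_apply_mem_of_mem ?_), hne y hy, hne y' hy', ?_⟩
    · simp [flat_append, flat_cons]
    · simp [flat_append, flat_cons]
    · rw [e0, e1, e2]
      exact hr.ins hQ hc fun v hv => mkreps_mem_rot (A := A) (B := (q, y :: y' :: g) :: C) v hv

end Crest.Agent.R054
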