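import Crest.Agent.R054.Defs

/-! Row 54: a long cycle from a longest path. -/

set_option autoImplicit false

namespace Crest.Agent.R054

open Finset

variable {V : Type*} [Fintype V] [DecidableEq V]

/-- paths inside `H` as sequences -/
structure LolliP (G : SimpleGraph V) (H : Finset V) (M : ℕ) (f : ℕ → V) : Prop where
  inj : ∀ i < M, ∀ j < M, f i = f j → i = j
  adj : ∀ i, i + 1 < M → G.Adj (f i) (f (i + 1))
  mem : ∀ i < M, f i ∈ H

omit [DecidableEq V] in
theorem lolli_le {G : SimpleGraph V} {H : Finset V} {M : ℕ} {f : ℕ → V} (h : LolliP G H M f) :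
    M ≤ Fintype.card V := by
  have := Fintype.card_le_of_injective (fun i : Fin M => f i)
    fun i j hij => Fin.ext (h.inj i i.2 j j.2 hij)
  simpa using this

omit [Fintype V] [DecidableEq V] in
theorem lolli_cons {G : SimpleGraph V} {H : Finset V} {M : ℕ} {f : ℕ → V} (h : LolliP G H M f)
    {v : V} (hv : v ∈ H) (hadj : G.Adj (f 0) v) (hn : ∀ i < M, v ≠ f i) :
    LolliP G H (M + 1) (fun i => Nat.casesOn i v f) := by
  refine ⟨?_, ?_, ?_⟩
  · rintro (_ | i) hi (_ | j) hj hij
    · rfl
    · exact absurd hij (hn j (by omega))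
    · exact absurd hij.symm (hn i (by omega))
    · rw [h.inj i (by omega) j (by omega) hij]
  · rintro (_ | i) hi
    · exact hadj.symm
    · exact h.adj i (by omega)
  · rintro (_ | i) hi
    · exact hv
    · exact h.mem i (by omega)

omit [Fintype V] [DecidableEq V] in
theorem lolli_rot {G : SimpleGraph V} {H : Finset V} {M : ℕ} {c : ℕ → V} (h : LolliP G H M c)
    {a : ℕ} (_h1 : 1 ≤ a) (ha : a < M) (hadj : G.Adj (c 0) (c a)) :
    LolliP G H M (fun i => c (if i < a then a - 1 - i else i)) := by
  refine ⟨?_, ?_, ?_⟩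
  · intro i hi j hj hij
    have := h.inj _ (by split_ifs <;> omega) _ (by split_ifs <;> omega) hij
    split_ifs at this <;> omega
  · intro i hi
    by_cases h2 : i + 1 < a
    · rw [if_pos h2, if_pos (by omega)]
      have := (h.adj (a - 1 - (i + 1)) (by omega)).symm
      rwa [show a - 1 - (i + 1) + 1 = a - 1 - i by omega] at this
    · by_cases h3 : i < a
      · rw [if_neg h2, if_pos h3, show a - 1 - i = 0 by omega, show i + 1 = a by omega]
        exact hadj
      · rw [if_neg h2, if_neg h3]
        exact h.adj i hi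
  · intro i hi
    exact h.mem _ (by split_ifs <;> omega)

/-- Paths in `H` are sequences `f` with a length `M` (injective on `range M`, consecutive terms
adjacent, values in `H`).  Take `M` maximal, and among the paths of that length a path `c` and
`j < M` with `c 0 ~ c j` and `j` maximal; `N = j + 1`.  For `1 ≤ a ≤ j` with `c 0 ~ c a` the rotated
sequence `i ↦ if i < a then c (a - 1 - i) else c i` is a path of length `M` that starts at
`c (a - 1)`; every neighbour in `H` of its first vertex lies on it (maximality of `M`) at a position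
`≤ j` (maximality of `j`).  This is the last claim.  Let `S = {a - 1 | c 0 ~ c a}`; `S` has as many
elements as `c 0` has neighbours in `H`, at least `δ`.  If `c s`, `c s'` are not adjacent for some
`s ≠ s'` in `S` then `D ≤ N` by `h2`.  Otherwise `c '' S` is a clique, so `|S| = δ`; the neighbours of
`c 0` are at the positions `(S \ {0}) ∪ {j}` (these are `δ` neighbours), so `a - 1 ∈ S` whenever
`a ∈ (S \ {0}) ∪ {j}`, hence `S = range j`, `j = δ`; every `c s` has `δ` neighbours among the
`δ + 1` vertices of the cycle, which is then a clique with `δ + 1` vertices: contradiction. -/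
theorem lollipop (G : SimpleGraph V) {H : Finset V} (hne : H.Nonempty) {δ D : ℕ} (hδ : 2 ≤ δ)
    (h1 : ∀ v ∈ H, δ + 1 ≤ (nb G {v} ∩ H).card)
    (hω : ∀ K ⊆ H, Clq G K → K.card ≤ δ)
    (h2 : ∀ a ∈ H, ∀ b ∈ H, a ≠ b → ¬ G.Adj a b → D ≤ (nb G {a, b} ∩ H).card) :
    ∃ (N : ℕ) (c : ℕ → V), D ≤ N ∧ Cyc G N c ∧ (∀ i < N, c i ∈ H) ∧
      ∀ a, 1 ≤ a → a < N → G.Adj (c 0) (c a) → ∀ v ∈ H, G.Adj (c (a - 1)) v →
        ∃ i < N, v = c i := by
  classical
  obtain ⟨v₀, hv₀⟩ := hne
  let P : ℕ → Prop := fun M => ∃ f, LolliP G H M f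
  have hP1 : LolliP G H 1 (fun _ => v₀) :=
    ⟨fun i hi j hj _ => by omega, fun i hi => by omega, fun _ _ => hv₀⟩
  set M := Nat.findGreatest P (Fintype.card V) with hMdef
  have hM1 : 1 ≤ M := Nat.le_findGreatest (lolli_le hP1) ⟨_, hP1⟩
  have hPM : P M := Nat.findGreatest_spec (lolli_le hP1) ⟨_, hP1⟩
  have hext : ∀ f, LolliP G H M f → ∀ v ∈ H, G.Adj (f 0) v → ∃ i < M, v = f i := by
    intro f hf v hv hadj
    by_contra hn
    push Not at hn
    have h3 := lolli_cons hf hv hadj hn
    have := Nat.le_findGreatest (P := P) (lolli_le h3) ⟨_, h3⟩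
    omega
  let Q : ℕ → Prop := fun j => ∃ f, LolliP G H M f ∧ j < M ∧ G.Adj (f 0) (f j)
  have hQ0 : ∃ j ≤ M, Q j := by
    obtain ⟨f, hf⟩ := hPM
    have h3 := h1 (f 0) (hf.mem 0 hM1)
    obtain ⟨v, hv, hv'⟩ := Finset.exists_mem_ne (s := nb G {f 0} ∩ H) (by omega) (f 0)
    rw [mem_inter, mem_nb] at hv
    simp only [mem_singleton, exists_eq_left, hv', false_or] at hv
    obtain ⟨i, hi, rfl⟩ := hext f hf v hv.2 hv.1
    exact ⟨i, hi.le, f, hf, hi, hv.1⟩
  obtain ⟨j₀, hj₀, hQj₀⟩ := hQ0
  set j := Nat.findGreatest Q M with hjdef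
  obtain ⟨c, hc, hjM, hcj⟩ : Q j := Nat.findGreatest_spec hj₀ hQj₀
  have hK : ∀ f, LolliP G H M f → ∀ v ∈ H, G.Adj (f 0) v → ∃ i ≤ j, v = f i := by
    intro f hf v hv hadj
    obtain ⟨i, hi, rfl⟩ := hext f hf v hv hadj
    exact ⟨i, Nat.le_findGreatest (P := Q) hi.le ⟨f, hf, hi, hadj⟩, rfl⟩
  have hrot : ∀ a, 1 ≤ a → a < j + 1 → G.Adj (c 0) (c a) → ∀ v ∈ H, G.Adj (c (a - 1)) v →
      ∃ i < j + 1, v = c i := by
    intro a ha1 ha hadj v hv hv'
    obtain ⟨i, hi, rfl⟩ := hK _ (lolli_rot hc ha1 (by omega) hadj) v hv (by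
      rw [if_pos (by omega)]; exact hv')
    exact ⟨_, by split_ifs <;> omega, rfl⟩
  let A : Finset ℕ := (range (j + 1)).filter fun a => G.Adj (c 0) (c a)
  have hA : ∀ a, a ∈ A ↔ a < j + 1 ∧ G.Adj (c 0) (c a) := fun a => by simp [A]
  have hA1 : ∀ a ∈ A, 1 ≤ a := by
    intro a ha
    rcases Nat.eq_zero_or_pos a with rfl | h
    · exact absurd ((hA 0).1 ha).2 (G.irrefl)
    · exact h
  have hδA : δ ≤ A.card := by
    have h3 := h1 (c 0) (hc.mem 0 hM1)
    have h4 : nb G {c 0} ∩ H ⊆ insert (c 0) (A.image c) := by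
      intro v hv
      rw [mem_inter, mem_nb] at hv
      simp only [mem_singleton, exists_eq_left] at hv
      rcases hv.1 with rfl | h5
      · exact mem_insert_self _ _
      · obtain ⟨i, hi, rfl⟩ := hK c hc v hv.2 h5
        exact mem_insert_of_mem (mem_image_of_mem _ ((hA i).2 ⟨by omega, h5⟩))
    have h5 := card_le_card h4
    have h6 := card_insert_le (c 0) (A.image c)
    have h7 := card_image_le (s := A) (f := c)
    omega
  have hAj : A.card ≤ j := by
    have : A ⊆ Icc 1 j := fun a ha =>
      mem_Icc.2 ⟨hA1 a ha, by have := ((hA a).1 ha).1; omega⟩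
    simpa using card_le_card this
  let C : Finset V := (range (j + 1)).image c
  have hCcard : C.card = j + 1 := by
    rw [card_image_of_injOn, card_range]
    intro a ha b hb hab
    simp only [coe_range, Set.mem_Iio] at ha hb
    exact hc.inj a (by omega) b (by omega) hab
  have hmemC : ∀ i < j + 1, c i ∈ C := fun i hi => mem_image_of_mem _ (mem_range.2 hi)
  have hnbC : ∀ a ∈ A, ∀ v ∈ H, G.Adj (c (a - 1)) v → v ∈ C := by
    intro a ha v hv hadj
    obtain ⟨i, hi, rfl⟩ := hrot a (hA1 a ha) ((hA a).1 ha).1 ((hA a).1 ha).2 v hv hadj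
    exact hmemC i hi
  refine ⟨j + 1, c, ?_, ⟨by omega, fun a ha b hb => hc.inj a (by omega) b (by omega),
    fun i hi => hc.adj i (by omega), hcj.symm⟩, fun i hi => hc.mem i (by omega), hrot⟩
  by_cases hcl : ∀ a ∈ A, ∀ b ∈ A, a ≠ b → G.Adj (c (a - 1)) (c (b - 1))
  · exfalso
    have h1A : 1 ∈ A := (hA 1).2 ⟨by omega, hc.adj 0 (by omega)⟩
    have hall : ∀ t ≤ j - 1, j - t ∈ A := by
      intro t
      induction t with
      | zero => exact fun _ => (hA j).2 ⟨by omega, hcj⟩
      | succ t ih =>
        intro ht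
        refine (hA _).2 ⟨by omega, ?_⟩
        exact hcl 1 h1A (j - t) (ih (by omega)) (by omega)
    have hall' : ∀ s < j, s + 1 ∈ A := fun s hs => by
      have := hall (j - (s + 1)) (by omega)
      rwa [show j - (j - (s + 1)) = s + 1 by omega] at this
    have hjδ : j ≤ δ := by
      have h3 := hω ((range j).image c) (by
        intro v hv
        obtain ⟨i, hi, rfl⟩ := mem_image.1 hv
        exact hc.mem i (by have := mem_range.1 hi; omega)) (by
        intro u hu v hv huv
        obtain ⟨a, ha, rfl⟩ := mem_image.1 hu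
        obtain ⟨b, hb, rfl⟩ := mem_image.1 hv
        exact hcl (a + 1) (hall' a (mem_range.1 ha)) (b + 1) (hall' b (mem_range.1 hb))
          fun h => huv (by rw [Nat.add_right_cancel h]))
      rwa [card_image_of_injOn, card_range] at h3
      intro a ha b hb hab
      simp only [coe_range, Set.mem_Iio] at ha hb
      exact hc.inj a (by omega) b (by omega) hab
    have hfull : ∀ s < j, ∀ v ∈ C, c s ≠ v → G.Adj (c s) v := by
      intro s hs v hv hne
      have h3 : nb G {c s} ∩ H ⊆ C := by
        intro w hw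
        rw [mem_inter, mem_nb] at hw
        simp only [mem_singleton, exists_eq_left] at hw
        rcases hw.1 with rfl | h5
        · exact hmemC s (by omega)
        · exact hnbC (s + 1) (hall' s hs) w hw.2 h5
      have h4 := h1 (c s) (hc.mem s (by omega))
      have h5 := eq_of_subset_of_card_le h3 (by omega)
      rw [← h5, mem_inter, mem_nb] at hv
      simp only [mem_singleton, exists_eq_left] at hv
      exact hv.1.resolve_left hne.symm
    have h6 := hω C (by
      intro v hv
      obtain ⟨i, hi, rfl⟩ := mem_image.1 hv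
      exact hc.mem i (by have := mem_range.1 hi; omega)) (by
      intro u hu v hv huv
      obtain ⟨a, ha, rfl⟩ := mem_image.1 hu
      obtain ⟨b, hb, rfl⟩ := mem_image.1 hv
      by_cases haj : a < j
      · exact hfull a haj _ hv huv
      · have hab : a ≠ b := fun h => huv (by rw [h])
        have := mem_range.1 ha
        have := mem_range.1 hb
        exact (hfull b (by omega) _ hu huv.symm).symm)
    omega
  · push Not at hcl
    obtain ⟨a, ha, b, hb, hab, hn⟩ := hcl
    have ha1 := hA1 a ha
    have hb1 := hA1 b hb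
    have ha2 := ((hA a).1 ha).1
    have hb2 := ((hA b).1 hb).1
    refine (h2 _ (hc.mem _ (by omega)) _ (hc.mem _ (by omega)) (fun h => ?_) hn).trans ?_
    · have := hc.inj _ (by omega) _ (by omega) h
      omega
    · rw [← hCcard]
      refine card_le_card fun w hw => ?_
      rw [mem_inter, mem_nb] at hw
      simp only [mem_insert, mem_singleton, exists_eq_or_imp, exists_eq_left] at hw
      rcases hw.1 with (rfl | rfl) | h5 | h5
      · exact hmemC _ (by omega)
      · exact hmemC _ (by omega)
      · exact hnbC a ha w hw.2 h5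
      · exact hnbC b hb w hw.2 h5

end Crest.Agent.R054
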