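import Crest.Agent.R054.Basic
import Crest.Agent.R054.Lolli

/-! Row 54: sets with independence number two. -/

set_option autoImplicit false

namespace Crest.Agent.R054

open Finset

variable {V : Type*} {G : SimpleGraph V}

lemma two_triple {B : Finset V} (hB : AlphaLe G B 2) {a b c : V} (ha : a ∈ B) (hb : b ∈ B)
    (hc : c ∈ B) (hab : a ≠ b) (hac : a ≠ c) (hbc : b ≠ c) :
    G.Adj a b ∨ G.Adj a c ∨ G.Adj b c := by
  classical
  by_contra hn
  push Not at hn
  obtain ⟨h1, h2, h3⟩ := hn
  have hI : Ind G {a, b, c} := by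
    intro u hu v hv huv
    simp only [mem_insert, mem_singleton] at hu hv
    rcases hu with rfl | rfl | rfl <;> rcases hv with rfl | rfl | rfl <;>
      first
      | exact G.irrefl huv
      | exact h1 huv
      | exact h2 huv
      | exact h3 huv
      | exact h1 huv.symm
      | exact h2 huv.symm
      | exact h3 huv.symm
  have := hB {a, b, c} (by
    intro x hx
    simp only [mem_insert, mem_singleton] at hx
    rcases hx with rfl | rfl | rfl <;> assumption) hI
  rw [card_eq_three.2 ⟨a, b, c, hab, hac, hbc, rfl⟩] at this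
  omega

lemma two_adj {N : ℕ} {c : ℕ → V} (hc : Cyc G N c) (x : ℕ) :
    G.Adj (c (x % N)) (c ((x + 1) % N)) := by
  have h3 := hc.three
  have hx : x % N < N := Nat.mod_lt _ (by omega)
  have e : (x + 1) % N = (x % N + 1) % N := by simp
  rw [e]
  by_cases h : x % N + 1 < N
  · rw [Nat.mod_eq_of_lt h]
    exact hc.adj _ h
  · have e2 : x % N + 1 = N := by omega
    rw [e2, Nat.mod_self, show x % N = N - 1 by omega]
    exact hc.close

lemma two_inj {N : ℕ} {c : ℕ → V} (hc : Cyc G N c) (x : ℕ) {i j : ℕ} (hi : i < N) (hj : j < N)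
    (h : c ((x + i) % N) = c ((x + j) % N)) : i = j := by
  have h3 := hc.three
  have h1 := hc.inj _ (Nat.mod_lt _ (by omega)) _ (Nat.mod_lt _ (by omega)) h
  have h2 : i ≡ j [MOD N] := Nat.ModEq.add_left_cancel' x h1
  exact Nat.ModEq.eq_of_lt_of_lt h2 hi hj

/-- Write `c x` for `c (x % N)`.  If `c x ~ c (x + 2)` for some `x`, skip `c (x + 1)`.  Otherwise
the triples `c x, c (x + 2), c (x + 4)` give `c x ~ c (x + 4)` for all `x`.  Among `c 0, c 2, c 5`:
if `c 2 ~ c 5` take `c 0, c 4, c 3, c 2, c 5, c 6, …`; if `c 0 ~ c 5` take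
`c 0, c 5, c 4, c 3, c 2, c 6, c 7, …`.  (Prove a rotation lemma for `Cyc` first.) -/
theorem Cyc.shorten {B : Finset V} (hB : AlphaLe G B 2) {N : ℕ} {c : ℕ → V} (hc : Cyc G N c)
    (hcB : ∀ i < N, c i ∈ B) (hN : 7 ≤ N) :
    ∃ c' : ℕ → V, Cyc G (N - 1) c' ∧ ∀ i < N - 1, c' i ∈ B := by
  have hmem : ∀ x, c (x % N) ∈ B := fun x => hcB _ (Nat.mod_lt _ (by omega))
  by_cases h2 : ∃ x, G.Adj (c (x % N)) (c ((x + 2) % N))
  · obtain ⟨x, hx⟩ := h2
    refine ⟨fun i => c ((x + 2 + i) % N), ⟨by omega, fun i hi j hj h => ?_, fun i _ => ?_, ?_⟩,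
      fun i _ => hmem _⟩
    · exact two_inj hc (x + 2) (by omega) (by omega) h
    · exact two_adj hc (x + 2 + i)
    · have e : (x + 2 + (N - 1 - 1)) % N = x % N := by
        rw [show x + 2 + (N - 1 - 1) = x + N by omega, Nat.add_mod_right]
      simp only [e]
      exact hx
  push Not at h2
  have hne : ∀ x i j, i < N → j < N → i ≠ j → c ((x + i) % N) ≠ c ((x + j) % N) :=
    fun x i j hi hj hij h => hij (two_inj hc x hi hj h)
  have h4 : ∀ x, G.Adj (c (x % N)) (c ((x + 4) % N)) := by
    intro x
    rcases two_triple hB (hmem (x + 0)) (hmem (x + 2)) (hmem (x + 4))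
      (hne x 0 2 (by omega) (by omega) (by omega)) (hne x 0 4 (by omega) (by omega) (by omega))
      (hne x 2 4 (by omega) (by omega) (by omega)) with h | h | h
    · exact (h2 x h).elim
    · exact h
    · exact (h2 (x + 2) h).elim
  have hm : ∀ i, i < 7 → i % N = i := fun i hi => Nat.mod_eq_of_lt (by omega)
  have h02 : ¬ G.Adj (c 0) (c 2) := by simpa [hm] using h2 0
  have h04 : G.Adj (c 0) (c 4) := by simpa [hm] using h4 0
  have h26 : G.Adj (c 2) (c 6) := by simpa [hm] using h4 2
  have h23 : G.Adj (c 2) (c 3) := hc.adj 2 (by omega)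
  have h34 : G.Adj (c 3) (c 4) := hc.adj 3 (by omega)
  have h45 : G.Adj (c 4) (c 5) := hc.adj 4 (by omega)
  have key : ∀ f : ℕ → ℕ, (∀ i < N - 1, f i < N) → (∀ i < N - 1, ∀ j < N - 1, f i = f j → i = j) →
      f 0 = 0 → (∀ i, 5 ≤ i → f i = i + 1) → (∀ i < 5, G.Adj (c (f i)) (c (f (i + 1)))) →
      ∃ c' : ℕ → V, Cyc G (N - 1) c' ∧ ∀ i < N - 1, c' i ∈ B := by
    intro f f1 f2 f3 f4 f5
    refine ⟨fun i => c (f i), ⟨by omega, fun i hi j hj h => ?_, fun i hi => ?_, ?_⟩,
      fun i hi => hcB _ (f1 i hi)⟩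
    · exact f2 i hi j hj (hc.inj _ (f1 i hi) _ (f1 j hj) h)
    · by_cases h5 : i < 5
      · exact f5 i h5
      · simp only [f4 i (by omega), f4 (i + 1) (by omega)]
        exact hc.adj _ (by omega)
    · simp only [f3, f4 (N - 1 - 1) (by omega), show N - 1 - 1 + 1 = N - 1 by omega]
      exact hc.close
  have hn : ∀ i j, i < 7 → j < 7 → i ≠ j → c i ≠ c j :=
    fun i j hi hj hij h => hij (hc.inj i (by omega) j (by omega) h)
  rcases two_triple hB (hcB 0 (by omega)) (hcB 2 (by omega)) (hcB 5 (by omega))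
    (hn 0 2 (by omega) (by omega) (by omega)) (hn 0 5 (by omega) (by omega) (by omega))
    (hn 2 5 (by omega) (by omega) (by omega)) with h | h | h
  · exact (h02 h).elim
  · refine key (fun i => if i = 0 then 0 else if i ≤ 4 then 6 - i else i + 1) ?_ ?_ rfl ?_ ?_
    · intro i hi
      split_ifs <;> omega
    · intro i hi j hj h
      split_ifs at h <;> omega
    · intro i hi
      split_ifs <;> omega
    · intro i hi
      interval_cases i
      · exact h
      · exact h45.symm
      · exact h34.symm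
      · exact h23.symm
      · exact h26
  · refine key (fun i => if i = 0 then 0 else if i ≤ 3 then 5 - i else i + 1) ?_ ?_ rfl ?_ ?_
    · intro i hi
      split_ifs <;> omega
    · intro i hi j hj h
      split_ifs at h <;> omega
    · intro i hi
      split_ifs <;> omega
    · intro i hi
      interval_cases i
      · exact h04
      · exact h34.symm
      · exact h23.symm
      · exact h
      · exact hc.adj 5 (by omega)

/-- Otherwise `dense` (`d = t`, `a = 2`, `ε = 1`) and `lollipop` (`δ = t`, `D = 2 t + 1`) give a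
cycle of length `≥ k + 1 ≥ 6` in `B`; shorten it. -/
theorem Ctx.two [Fintype V] [DecidableEq V] {k t : ℕ} (h : Ctx G k) (hk : 5 ≤ k)
    (hkt : k ≤ 2 * t) (hω : OmegaLe G t) {B : Finset V} (hB : AlphaLe G B 2) :
    B.card ≤ 2 * t := by
  by_contra hlt
  push Not at hlt
  obtain ⟨H, hHB, hne, hH⟩ := dense G (L := B) (card_pos.1 (by omega)) (d := t) (a := 2) (ε := 1)
    le_rfl hB (by omega)
  obtain ⟨N, c, hN, hc, hcH, -⟩ := lollipop G hne (δ := t) (D := 2 * t + 1) (by omega)
    (fun v hv => by
      simpa using hH {v} (by simpa using hv) (singleton_nonempty v) (ind_singleton v))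
    (fun K _ hK => hω K hK)
    (fun a ha b hb hab hn => by
      have := hH {a, b} (by
        intro x hx
        simp only [mem_insert, mem_singleton] at hx
        rcases hx with rfl | rfl <;> assumption) (insert_nonempty _ _) (by
        intro u hu v hv huv
        simp only [mem_insert, mem_singleton] at hu hv
        rcases hu with rfl | rfl <;> rcases hv with rfl | rfl <;>
          first
          | exact G.irrefl huv
          | exact hn huv
          | exact hn huv.symm)
      rw [card_pair hab] at this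
      omega)
  have key : ∀ n (c : ℕ → V), Cyc G (k + 1 + n) c → (∀ i < k + 1 + n, c i ∈ B) → False := by
    intro n
    induction n with
    | zero => exact fun c hc _ => h.nocyc hc.hasCyc
    | succ n ih =>
      intro c hc hcB
      obtain ⟨c', h1, h2⟩ := hc.shorten hB hcB (by omega)
      exact ih c' h1 h2
  obtain ⟨n, rfl⟩ : ∃ n, N = k + 1 + n := ⟨N - (k + 1), by omega⟩
  exact key n c hc fun i hi => hHB (hcH i hi)

end Crest.Agent.R054
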