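import Crest.Agent.R054.Ball
import Crest.Agent.R054.Two

/-! Row 54: clique number at least seven. -/

set_option autoImplicit false
set_option linter.unusedSectionVars false

namespace Crest.Agent.R054

open Finset

variable {V : Type*} [Fintype V] [DecidableEq V] {G : SimpleGraph V} {k t : ℕ}

/-- The vertices of `X` that are not successors. -/
noncomputable def Reps.N (r : Reps G k t) : Finset V := r.X \ (range t).image r.rep

theorem Reps.card_N (r : Reps G k t) : r.N.card = ∑ i ∈ range t, r.p i := by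
  have h1 : (range t).image r.rep ⊆ r.X := by
    intro x hx
    obtain ⟨i, hi, rfl⟩ := mem_image.1 hx
    exact r.mem i (mem_range.1 hi)
  have h2 : ((range t).image r.rep).card = t := by
    rw [card_image_of_injOn fun i hi j hj e =>
      r.inj i (mem_range.1 (mem_coe.1 hi)) j (mem_range.1 (mem_coe.1 hj)) e, card_range]
  rw [Reps.N, card_sdiff_of_subset h1, h2, r.card]
  omega

theorem Reps.unif_mem_N (r : Reps G k t) {x : V} : x ∈ r.N ↔ x ∈ r.X ∧ ∀ j < t, r.rep j ≠ x := by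
  simp [Reps.N]

/-- `ob_one` with `Y = X.erase (rep i)`. -/
theorem Reps.one (h : Ctx G k) (r : Reps G k t) {i : ℕ} (hi : i < t) :
    (ob G r.X (r.rep i) 1).Nonempty := by
  have h1 := h.ob_one (r.mem i hi) (Y := r.X.erase (r.rep i))
    fun x hx ha => mem_erase.2 ⟨ha.ne', hx⟩
  rw [card_erase_of_mem (r.mem i hi)] at h1
  have h2 := r.le
  have h3 : 0 < r.X.card := card_pos.2 ⟨_, r.mem i hi⟩
  exact card_pos.1 (by omega)

/-- A common neighbour of two successors is a `Conn` of length one, excluded by `run`. -/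
theorem Reps.nbr (r : Reps G k t) (ht : 2 ≤ t) {i : ℕ} (hi : i < t) {v x : V}
    (hv : v ∈ ob G r.X (r.rep i) 1) (hx : x ∈ r.X) (hvx : G.Adj v x) : x = r.rep i ∨ x ∈ r.N := by
  by_contra hc
  rw [not_or, r.unif_mem_N, not_and] at hc
  have h1 := hc.2 hx
  push Not at h1
  obtain ⟨j, hj, rfl⟩ := h1
  obtain ⟨hv1, hv2⟩ := (mem_ob_one (r.mem i hi)).1 hv
  obtain ⟨-, -, z, hz, -⟩ := r.run i hi j hj (fun e => hc.1 (by rw [e])) 1 le_rfl (by omega)
    (conn_one.2 ⟨v, hv1, hv2, hvx⟩)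
  omega

/-- `grow` with `I = {v}`, `B = insert (rep i) (ob 2)`, `Y = N`, `f = t`. -/
theorem Reps.two_flag (h : Ctx G k) (hω : OmegaLe G t) (r : Reps G k t) (ht : 2 ≤ t) {i : ℕ}
    (hi : i < t) :
    ∃ J ⊆ insert (r.rep i) (ob G r.X (r.rep i) 2), Ind G J ∧ J.card = 2 := by
  obtain ⟨v, hv⟩ := r.one h hi
  have h1 : nb G {v} ⊆ ob G r.X (r.rep i) 2 ∪ insert (r.rep i) r.N :=
    nb_subset_ob (singleton_subset_iff.2 hv) fun w hw x hx ha => by
      rw [mem_singleton.1 hw] at ha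
      exact mem_insert.2 (r.nbr ht hi hv hx ha)
  refine h.grow (I := {v}) (Y := r.N) (f := t) (singleton_nonempty v) (ind_singleton v)
    (fun x hx => ?_) (fun hB => hω.card_le hB) ?_
  · have := h1 hx
    simp only [mem_union, mem_insert] at this ⊢
    tauto
  · have := r.card_N
    have := r.card
    have := r.le
    rw [card_singleton]
    omega

/-- `grow` with `I = {v}`, `B = ob 2`, `f = t` and `Y = insert (rep i) N` in the first case; in the
other cases some `x ∈ N` is not adjacent to `v` (`ins1`, `ins2`, `conn_one`) and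
`Y = insert (rep i) (N.erase x)`. -/
theorem Reps.two (h : Ctx G k) (hω : OmegaLe G t) (r : Reps G k t) (ht : 2 ≤ t) {i : ℕ}
    (hi : i < t) (hc : r.X.card < k ∨ r.p i ≠ 0 ∨ ∃ j < t, 2 ≤ r.p j) :
    ∃ J ⊆ ob G r.X (r.rep i) 2, Ind G J ∧ J.card = 2 := by
  obtain ⟨v, hv⟩ := r.one h hi
  obtain ⟨hv1, hv2⟩ := (mem_ob_one (r.mem i hi)).1 hv
  have hN := r.card_N
  have hX := r.card
  have hle := r.le
  have key : ∀ Y : Finset V, (∀ x ∈ r.N, G.Adj v x → x ∈ Y) → t + Y.card + 1 ≤ k →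
      ∃ J ⊆ ob G r.X (r.rep i) 2, Ind G J ∧ J.card = 2 := by
    intro Y hY hk
    refine h.grow (I := {v}) (Y := insert (r.rep i) Y) (f := t) (singleton_nonempty v)
      (ind_singleton v) (nb_subset_ob (singleton_subset_iff.2 hv) fun w hw x hx ha => ?_)
      (fun hB => hω.card_le hB) ?_
    · rw [mem_singleton.1 hw] at ha
      exact mem_insert.2 ((r.nbr ht hi hv hx ha).imp_right fun h' => hY x h' ha)
    · have := card_insert_le (r.rep i) Y
      rw [card_singleton]
      omega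
  have key2 : ∀ x ∈ r.N, ¬ G.Adj v x → ∃ J ⊆ ob G r.X (r.rep i) 2, Ind G J ∧ J.card = 2 := by
    intro x hx hvx
    refine key (r.N.erase x) (fun y hy ha => mem_erase.2 ⟨fun e => hvx (e ▸ ha), hy⟩) ?_
    have : 0 < r.N.card := card_pos.2 ⟨x, hx⟩
    rw [card_erase_of_mem hx]
    omega
  rcases hc with hc | hc | ⟨j, hj, hc⟩
  · exact key r.N (fun _ hx _ => hx) (by omega)
  · obtain ⟨x, hx, hx', hn⟩ := r.ins1 i hi hc
    exact key2 x (r.unif_mem_N.2 ⟨hx, hx'⟩) fun ha => hn (conn_one.2 ⟨v, hv1, hv2, ha⟩)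
  · obtain ⟨x, hx, y, hy, hx', hy', hn⟩ := r.ins2 j hj hc
    by_cases ha : G.Adj v x
    · exact key2 y (r.unif_mem_N.2 ⟨hy, hy'⟩) fun ha' => hn (conn_one.2 ⟨v, hv1, ha.symm, ha'⟩)
    · exact key2 x (r.unif_mem_N.2 ⟨hx, hx'⟩) ha

/-- `Ctx.balls` with prescribed sizes and at most one flagged ball. -/
theorem Reps.unif_balls (h : Ctx G k) (r : Reps G k t) (s : Finset ℕ) (hs : ∀ i ∈ s, i < t)
    (ρ n : ℕ → ℕ) (i₀ : ℕ)
    (hJ : ∀ i ∈ s, ∃ J ⊆ insert (r.rep i) (ob G r.X (r.rep i) (ρ i)), Ind G J ∧ J.card = n i ∧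
      (r.rep i ∈ J → i = i₀))
    (hno : ∀ i ∈ s, ∀ j ∈ s, i ≠ j → ∀ l, 1 ≤ l → l ≤ ρ i + ρ j →
      ¬ Conn G r.X (r.rep i) (r.rep j) l) : ∑ i ∈ s, n i ≤ k := by
  choose! J h1 h2 h3 h4 using hJ
  rw [← sum_congr rfl h3]
  exact h.balls s r.rep ρ J (fun i hi => r.mem i (hs i hi)) h2 h1 hno
    fun i hi j hj hij e1 e2 => absurd ((h4 i hi e1).trans (h4 j hj e2).symm) hij

theorem Reps.unif_plain (r : Reps G k t) {i ρ n i₀ : ℕ} (hi : i < t)
    (hJ : ∃ J ⊆ ob G r.X (r.rep i) ρ, Ind G J ∧ J.card = n) :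
    ∃ J ⊆ insert (r.rep i) (ob G r.X (r.rep i) ρ), Ind G J ∧ J.card = n ∧
      (r.rep i ∈ J → i = i₀) := by
  obtain ⟨J, h1, h2, h3⟩ := hJ
  exact ⟨J, h1.trans (subset_insert _ _), h2, h3, fun e => absurd (r.mem i hi) (ob_notMem (h1 e))⟩

theorem Reps.unif_single (h : Ctx G k) (r : Reps G k t) {i ρ : ℕ} (hi : i < t) (hρ : 1 ≤ ρ) :
    ∃ J ⊆ ob G r.X (r.rep i) ρ, Ind G J ∧ J.card = 1 := by
  obtain ⟨v, hv⟩ := r.one h hi
  exact ⟨{v}, singleton_subset_iff.2 (ob_mono hρ hv), ind_singleton v, card_singleton v⟩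

/-- `Ctx.balls` with all radii `2`.  If `X.card < k` or some `p j ≥ 2` the sum is `2 t`.  Otherwise
`k = s + t`, `s = ∑ p i` is the number of `i` with `p i ≠ 0`, and `s < t` gives `i₀` with `p i₀ = 0`;
use `two` if `p i ≠ 0`, `two_flag` for `i₀` and a singleton from `one` otherwise: the sum is
`t + s + 1`. -/
theorem Reps.far (h : Ctx G k) (hω : OmegaLe G t) (r : Reps G k t) (ht : 2 ≤ t)
    (hk : k + 1 ≤ 2 * t) (hno : ∀ i < t, ∀ j < t, i ≠ j → ∀ l, 1 ≤ l → l ≤ 4 →
      ¬ Conn G r.X (r.rep i) (r.rep j) l) : False := by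
  have hno' : ∀ i ∈ range t, ∀ j ∈ range t, i ≠ j → ∀ l, 1 ≤ l → l ≤ 2 + 2 →
      ¬ Conn G r.X (r.rep i) (r.rep j) l :=
    fun i hi j hj => hno i (mem_range.1 hi) j (mem_range.1 hj)
  by_cases hc : r.X.card < k ∨ ∃ j < t, 2 ≤ r.p j
  · have := r.unif_balls h (range t) (fun i hi => mem_range.1 hi) (fun _ => 2) (fun _ => 2) 0
      (fun i hi => r.unif_plain (mem_range.1 hi)
        (r.two h hω ht (mem_range.1 hi) (hc.imp_right Or.inr))) hno'
    rw [sum_const, card_range, smul_eq_mul] at this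
    omega
  · push Not at hc
    have hX := r.card
    have hle := r.le
    obtain ⟨i₀, hi₀, hp₀⟩ : ∃ i₀ < t, r.p i₀ = 0 := by
      by_contra hn
      push Not at hn
      have : #(range t) • 1 ≤ ∑ i ∈ range t, r.p i :=
        card_nsmul_le_sum (range t) r.p 1 fun i hi =>
          Nat.one_le_iff_ne_zero.2 (hn i (mem_range.1 hi))
      rw [card_range, smul_eq_mul] at this
      omega
    have := r.unif_balls h (range t) (fun i hi => mem_range.1 hi) (fun _ => 2)
      (fun i => r.p i + 1 + if i = i₀ then 1 else 0) i₀ (fun i hi => ?_) hno'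
    · rw [sum_add_distrib, sum_add_distrib, sum_ite_eq', if_pos (mem_range.2 hi₀), sum_const,
        card_range, smul_eq_mul] at this
      omega
    · have hi' := mem_range.1 hi
      by_cases e : i = i₀
      · obtain ⟨J, h1, h2, h3⟩ := r.two_flag h hω ht hi'
        exact ⟨J, h1, h2, by rw [h3, if_pos e, e, hp₀], fun _ => e⟩
      · refine r.unif_plain hi' ?_
        rw [if_neg e]
        by_cases hp : r.p i = 0
        · rw [hp]
          exact r.unif_single h hi' (by norm_num)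
        · have := hc.2 i hi'
          rw [show r.p i = 1 by omega]
          exact r.two h hω ht hi' (Or.inr (Or.inl hp))

/-- Let `s = ∑ p h ≤ k - t ≤ t - 1`, `e` the number of nonzero `p h`, `T` the set of `h` with
`p h = 0 ∧ p' h = 0`, `τ = |T|`.  For every `Conn` between two successors with `1 ≤ l ≤ 6`, `run` gives
`z` with `e (z + 2) ≤ s`.  The given one has `z ≤ 2`, so `e ≥ 2` (`t ≥ 7`), all nonzero `p h` are
`≥ 2`, `k - t ≥ s ≥ 4`.  For every one, `e z + ends ≤ z + 1` where `ends` is the sum of the two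
`if`s, so `z ≤ 1`, `τ ≤ 3`, `ends ≤ 1`, and `ends = 1` gives `z = 0`, `τ ≤ 1`.  So two indices outside
`T` have no `Conn` with `l ≤ 6`; if `τ = 3` an index in `T` and one outside have none either, and two
indices in `T` have none with `l ≤ 2`.  For `i ∉ T`: `two` gives `I ⊆ ob 2`, its neighbours in `X` lie
in `Y = insert (rep i) (N ∪ T.image rep)` (`conn_of_adj`), and `grow` with `f = 2 t` (`Ctx.two`),
`2 t + s + 4 ≤ 2 k`, gives three independent vertices in `ob 3`.  `Ctx.balls` on `range t \ T` with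
radii `3` if `τ ≤ 2` (sum `≥ 3 t - 6 ≥ 2 t`), on `range t` with radius `1` on `T` if `τ = 3`. -/
theorem Reps.near (h : Ctx G k) (hω : OmegaLe G t) (r : Reps G k t) (ht : 7 ≤ t)
    (hk : k + 1 ≤ 2 * t) {i j l : ℕ} (hi : i < t) (hj : j < t) (hij : i ≠ j) (h1 : 1 ≤ l)
    (h4 : l ≤ 4) (hcon : Conn G r.X (r.rep i) (r.rep j) l) : False := by
  have hX := r.card
  have hle := r.le
  have hN := r.card_N
  set s := ∑ i ∈ range t, r.p i with hs
  set e := #{h ∈ range t | r.p h ≠ 0} with he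
  set T := {h ∈ range t | r.p h = 0 ∧ r.p' h = 0} with hT
  have hes : ∀ z, (∀ h < t, r.p h = 0 ∨ z + 2 ≤ r.p h) → e * (z + 2) ≤ s := by
    intro z hz
    have := card_nsmul_le_sum {h ∈ range t | r.p h ≠ 0} r.p (z + 2) fun i hi =>
      (hz i (mem_range.1 (mem_filter.1 hi).1)).resolve_left (mem_filter.1 hi).2
    exact this.trans (sum_le_sum_of_subset (filter_subset _ _))
  obtain ⟨-, -, z₀, hz1, hz2, -, hz4⟩ := r.run i hi j hj hij l h1 (by omega) hcon
  have he2 : 2 ≤ e := by omega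
  have hs4 : 4 ≤ s := by
    have := hes z₀ hz2
    nlinarith
  have hp2 : ∃ j < t, 2 ≤ r.p j := by
    obtain ⟨j, hj⟩ := card_pos.1 (show 0 < e by omega)
    have hj' := mem_range.1 (mem_filter.1 hj).1
    exact ⟨j, hj', le_trans (by omega) ((hz2 j hj').resolve_left (mem_filter.1 hj).2)⟩
  have key : ∀ i < t, ∀ j < t, i ≠ j → ∀ l, 1 ≤ l → l ≤ 6 → Conn G r.X (r.rep i) (r.rep j) l →
      ∃ z : ℕ, z + 2 ≤ l ∧
        z + (if i ∈ T then 0 else 1) + (if j ∈ T then 0 else 1) ≤ 1 ∧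
        T.card + (if i ∈ T then 0 else 1) + (if j ∈ T then 0 else 1) ≤ z + 2 := by
    intro i hi j hj hij l h1 h6 hc
    obtain ⟨hpi, hpj, z, k1, k2, k3, k4⟩ := r.run i hi j hj hij l h1 (by omega) hc
    have e1 : (i ∈ T) ↔ r.p' i = 0 := by simp [hT, hi, hpi]
    have e2 : (j ∈ T) ↔ r.p' j = 0 := by simp [hT, hj, hpj]
    simp only [e1, e2]
    refine ⟨z, k1, ?_, k3⟩
    have k5 := hes z k2
    have k6 : 2 * z ≤ e * z := Nat.mul_le_mul_right z he2
    rw [mul_add] at k5
    omega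
  have hτ : T.card ≤ 3 := by
    obtain ⟨z, k1, k2, k3⟩ := key i hi j hj hij l h1 (by omega) hcon
    omega
  have hout : ∀ i < t, ∀ j < t, i ≠ j → i ∉ T → j ∉ T → ∀ l, 1 ≤ l → l ≤ 6 →
      ¬ Conn G r.X (r.rep i) (r.rep j) l := by
    intro i hi j hj hij hiT hjT l h1 h6 hc
    obtain ⟨z, k1, k2, k3⟩ := key i hi j hj hij l h1 h6 hc
    rw [if_neg hiT, if_neg hjT] at k2
    omega
  have h3 : ∀ i < t, i ∉ T → ∃ J ⊆ ob G r.X (r.rep i) 3, Ind G J ∧ J.card = 3 := by
    intro i hi hiT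
    obtain ⟨I, hI1, hI2, hI3⟩ := r.two h hω (by omega) hi (Or.inr (Or.inr hp2))
    have := h.grow (I := I) (B := ob G r.X (r.rep i) 3)
      (Y := insert (r.rep i) (r.N ∪ T.image r.rep)) (f := 2 * t) (card_pos.1 (by omega)) hI2
      (nb_subset_ob hI1 fun v hv x hx ha => ?_)
      (fun hB => h.two (by omega) (by omega) hω (hI3 ▸ hB)) ?_
    · rwa [hI3] at this
    · obtain ⟨l, k1, k2, k3⟩ := conn_of_adj (r.mem i hi) (hI1 hv) ha
      by_cases hxN : x ∈ r.N
      · exact mem_insert_of_mem (mem_union_left _ hxN)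
      · rw [r.unif_mem_N, not_and] at hxN
        have k4 := hxN hx
        push Not at k4
        obtain ⟨j, hj, rfl⟩ := k4
        by_cases hij : i = j
        · rw [hij]; exact mem_insert_self _ _
        · refine mem_insert_of_mem (mem_union_right _ (mem_image_of_mem _ ?_))
          by_contra hjT
          exact hout i hi j hj hij hiT hjT l k1 (by omega) k3
    · have k1 := card_insert_le (r.rep i) (r.N ∪ T.image r.rep)
      have k2 := card_union_le r.N (T.image r.rep)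
      have k3 := card_image_le (s := T) (f := r.rep)
      rw [hI3]
      omega
  have hTs : T ⊆ range t := filter_subset _ _
  have hcs := card_sdiff_add_card_eq_card hTs
  rw [card_range] at hcs
  by_cases hτ2 : T.card ≤ 2
  · have := r.unif_balls h (range t \ T) (fun i hi => mem_range.1 (mem_sdiff.1 hi).1)
      (fun _ => 3) (fun _ => 3) 0
      (fun i hi => r.unif_plain (mem_range.1 (mem_sdiff.1 hi).1)
        (h3 i (mem_range.1 (mem_sdiff.1 hi).1) (mem_sdiff.1 hi).2))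
      fun i hi j hj hij => hout i (mem_range.1 (mem_sdiff.1 hi).1) j
        (mem_range.1 (mem_sdiff.1 hj).1) hij (mem_sdiff.1 hi).2 (mem_sdiff.1 hj).2
    rw [sum_const, smul_eq_mul] at this
    omega
  · have := r.unif_balls h (range t) (fun i hi => mem_range.1 hi)
      (fun i => if i ∈ T then 1 else 3) (fun i => if i ∈ T then 1 else 3) 0
      (fun i hi => r.unif_plain (mem_range.1 hi) ?_) fun i hi j hj hij l k1 k2 hc => ?_
    · rw [← sum_sdiff hTs, sum_congr rfl fun i hi => if_neg (mem_sdiff.1 hi).2,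
        sum_congr rfl fun i hi => if_pos hi, sum_const, sum_const, smul_eq_mul, smul_eq_mul] at this
      omega
    · split_ifs with hiT
      · exact r.unif_single h (mem_range.1 hi) le_rfl
      · exact h3 i (mem_range.1 hi) hiT
    · obtain ⟨z, k3, k4, k5⟩ := key i (mem_range.1 hi) j (mem_range.1 hj) hij l k1
        (by split_ifs at k2 <;> omega) hc
      split_ifs at k2 k4 k5 <;> omega

theorem Reps.false (h : Ctx G k) (hω : OmegaLe G t) (r : Reps G k t) (ht : 7 ≤ t)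
    (hk : k + 1 ≤ 2 * t) : False :=
  r.far h hω (by omega) hk fun _ hi _ hj hij _ h1 h4 hc => r.near h hω ht hk hi hj hij h1 h4 hc

end Crest.Agent.R054
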