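import Crest.Agent.R054.Count
import Crest.Agent.R054.MkReps
import Crest.Agent.R054.Unif
import Crest.Agent.R054.Check
import Crest.Agent.R054.Cert

/-! Row 54: assembly. -/

set_option autoImplicit false

namespace Crest.Agent.R054

open Finset

theorem not_ctx {V : Type*} [Fintype V] [DecidableEq V] (G : SimpleGraph V) (k : ℕ) :
    ¬ Ctx G k := by
  intro h
  obtain ⟨Q, hQ, hω⟩ := exists_omega G
  have h3 : 3 ≤ Q.card := by
    by_contra hlt
    exact h.tri fun K hK => (hω K hK).trans (by omega)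
  have hk3 := h.k3
  have hk : Q.card ≤ k := by
    by_contra hlt
    exact h.nocyc (hQ.hasCyc (by omega) (by omega))
  have hk' : k + 1 ≤ 2 * Q.card := by
    by_cases h6 : 6 ≤ k
    · by_contra hlt
      exact h.big h6 fun K hK => (hω K hK).trans (by omega)
    · omega
  by_cases h7 : 7 ≤ Q.card
  · obtain ⟨r⟩ := exists_reps hQ h.nocyc (by omega) hk hk'
    exact r.false h hω h7 hk'
  · obtain ⟨steps, hs⟩ := small h3 (by omega) hk hk'
    exact cert_false h hQ hω (by omega) hs

theorem main (m n : ℕ) (hn : 3 ≤ n) (hnm : n ≤ m)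
    (h33 : ¬ (m = 3 ∧ n = 3)) (V : Type) [Fintype V] [DecidableEq V]
    (hV : Fintype.card V = (m - 1) * (n - 1) + 1) (G : SimpleGraph V) :
    (∃ v : V, ∃ p : G.Walk v v, p.IsCycle ∧ p.length = m) ∨
      (∃ s : Finset V, Gᶜ.IsNClique n s) := by
  by_contra hcon
  rw [not_or] at hcon
  obtain ⟨h1, h2⟩ := hcon
  have hm : 4 ≤ m := by omega
  have hc : ¬ HasCyc G (m - 1 + 1) := by
    intro hc
    rw [Nat.sub_add_cancel (by omega)] at hc
    exact h1 (hc.walk (by omega))
  have ha : AlphaLe G univ (n - 1) := by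
    intro I _ hI
    by_contra hlt
    obtain ⟨J, hJI, hJ⟩ := exists_subset_card_eq (s := I) (n := n) (by omega)
    refine h2 ⟨J, ⟨?_, hJ⟩⟩
    intro u hu v hv huv
    exact ⟨huv, hI u (hJI hu) v (hJI hv)⟩
  have := reduce (k := m - 1) (by omega) (fun W _ _ G' => not_ctx G' _) V G hc (by omega) ha
  omega

end Crest.Agent.R054
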