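import Crest.Agent.R054.Tree
import Crest.Agent.R054.Lolli
import Crest.Agent.R054.Chord

/-! Row 54: spheres are small, so there is a large clique. -/

set_option autoImplicit false

namespace Crest.Agent.R054

open Finset

variable {V : Type*} [Fintype V] [DecidableEq V] {G : SimpleGraph V} {k : ℕ}

omit [Fintype V] in
theorem layer_ind_pair {a b : V} (h : ¬ G.Adj a b) : Ind G {a, b} := by
  intro u hu v hv
  simp only [mem_insert, mem_singleton] at hu hv
  rcases hu with rfl | rfl <;> rcases hv with rfl | rfl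
  · exact G.irrefl
  · exact h
  · exact fun e => h e.symm
  · exact G.irrefl

theorem layer_zero (z : V) : z ∈ ly G z 0 := mem_singleton_self z

/-- Otherwise `dense` (`ε = 1`) gives `H ⊆ ly i` and `lollipop` (`δ = d`, `D = 2 d + 1`) a cycle `c`
of length `N ≥ 2 d + 1 ≥ k`.  The `≥ 3` neighbours of `c 0` in `H` lie on the cycle (`a = 1`), so
there is a chord at `c 0`.  Take `j, χ` from `tree` for the vertex set of the cycle and
`l = k + 1 - 2 j`, `1 ≤ l < N`.  A `BiPath` and `hasCyc_of_conn` give a cycle of length `k + 1`.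
Otherwise `chord` holds: `χ (c 0) = χ (c 2)` gives `j ≠ 1`, so `i ≥ 2`.  The set
`S = {c (a - 1) | c 0 ~ c a}` has at least `d` elements, all at even positions, so it is
independent, and `nb G S ∩ H ⊆ S ∪ O` where `O` is the independent set of the vertices at odd
positions.  So `|O| ≥ (d - 1) |S| + 1 ≥ d (d - 1) + 1`, and `insert z O` is independent
(`ly_adj`, `i ≥ 2`) with more than `2 d + 1 ≥ k` elements. -/
theorem Ctx.layer (h : Ctx G k) {d : ℕ} (hd : 3 ≤ d) (hk : k ≤ 2 * d + 1) (hω : OmegaLe G d)
    (z : V) {i : ℕ} (hi : 1 ≤ i) (hik : 2 * i ≤ k) {a : ℕ} (ha : AlphaLe G (ly G z i) a) :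
    (ly G z i).card ≤ d * a := by
  classical
  by_contra hcon
  have hL : d * a + 1 ≤ (ly G z i).card := by omega
  obtain ⟨H, hHL, hne, hH⟩ := dense G (card_pos.1 (by omega)) le_rfl ha hL
  obtain ⟨N, c, hN, hc, hcH, hrot⟩ := lollipop G hne (δ := d) (D := 2 * d + 1) (by omega)
    (fun v hv => by
      simpa using hH {v} (singleton_subset_iff.2 hv) (singleton_nonempty v) (ind_singleton v))
    (fun K _ hK => hω K hK)
    (fun u hu v hv huv hadj => by
      have := hH {u, v} (insert_subset hu (singleton_subset_iff.2 hv)) (insert_nonempty _ _)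
        (layer_ind_pair hadj)
      rw [card_pair huv] at this
      omega)
  have hN3 := hc.three
  set A := (range N).filter fun a => G.Adj (c 0) (c a) with hA
  have hmemA : ∀ a, a ∈ A ↔ a < N ∧ G.Adj (c 0) (c a) := fun a => by simp [hA]
  have hA0 : ∀ a ∈ A, 1 ≤ a := fun a haA => by
    rcases Nat.eq_zero_or_pos a with rfl | h0
    · exact (G.irrefl ((hmemA 0).1 haA).2).elim
    · exact h0
  have hAd : d ≤ A.card := by
    have h1 := hH {c 0} (singleton_subset_iff.2 (hcH 0 (by omega))) (singleton_nonempty _)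
      (ind_singleton _)
    have h2 : nb G {c 0} ∩ H ⊆ insert (c 0) (A.image c) := by
      intro v hv
      obtain ⟨hv1, hv2⟩ := mem_inter.1 hv
      rcases mem_nb.1 hv1 with e | ⟨u, hu, e⟩
      · exact mem_insert.2 (Or.inl (mem_singleton.1 e))
      · rw [mem_singleton.1 hu] at e
        obtain ⟨n, hn, rfl⟩ := hrot 1 le_rfl (by omega) (hc.adj 0 (by omega)) v hv2 e
        exact mem_insert_of_mem (mem_image_of_mem c ((hmemA n).2 ⟨hn, e⟩))
    have h3 := card_le_card h2
    have h4 := card_insert_le (c 0) (A.image c)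
    have h5 : (A.image c).card ≤ A.card := card_image_le
    rw [card_singleton] at h1
    omega
  obtain ⟨r, hrA, hr⟩ : ∃ r ∈ A, r ∉ ({1, N - 1} : Finset ℕ) := by
    refine exists_mem_notMem_of_card_lt_card ?_
    have := card_le_two (a := 1) (b := N - 1)
    omega
  simp only [mem_insert, mem_singleton, not_or] at hr
  have hr0 := hA0 r hrA
  obtain ⟨hrN, hradj⟩ := (hmemA r).1 hrA
  have hCsub : (range N).image c ⊆ ly G z i := by
    intro v hv
    obtain ⟨n, hn, rfl⟩ := mem_image.1 hv
    exact hHL (hcH n (mem_range.1 hn))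
  have hCcard : ((range N).image c).card = N := by
    rw [card_image_of_injOn, card_range]
    intro x hx y hy e
    exact hc.inj x (by simpa using hx) y (by simpa using hy) e
  obtain ⟨j, χ, hj1, hji, ⟨u, hu, w, hw, huw⟩, hjid, hconn⟩ := tree hCsub (by omega)
  obtain ⟨u', hu', rfl⟩ := mem_image.1 hu
  obtain ⟨w', hw', rfl⟩ := mem_image.1 hw
  by_cases hbi : BiPath G N c χ (k + 1 - 2 * j)
  · obtain ⟨f, hf1, hf2, hf3, hf4⟩ := hbi
    have hmem : ∀ n ≤ k + 1 - 2 * j, c (f n) ∈ (range N).image c := fun n hn =>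
      mem_image_of_mem c (mem_range.2 (hf1 n hn))
    have := hasCyc_of_conn (X := ly G z i) (f := fun n => c (f n)) (n := k + 1 - 2 * j)
      (fun n hn => hCsub (hmem n hn))
      (fun n hn m hm e => hf2 n hn m hm (hc.inj _ (hf1 n hn) _ (hf1 m hm) e)) hf3
      (hconn _ (hmem _ le_rfl) _ (hmem 0 (Nat.zero_le _)) hf4.symm)
    rw [show k + 1 - 2 * j + 1 + (2 * j - 1) = k + 1 by omega] at this
    exact h.nocyc this
  obtain ⟨-, hχ, hpar⟩ := chord hc χ (l := k + 1 - 2 * j) (by omega) (by omega)
    ⟨u', mem_range.1 hu', w', mem_range.1 hw', huw⟩ (r := r) (by omega) (by omega) hradj hbi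
  have hi2 : 2 ≤ i := by
    by_contra hlt
    have hj : j = 1 := by omega
    rw [hjid hj, hjid hj] at hχ
    have := hc.inj 0 (by omega) 2 (by omega) hχ
    omega
  have hAodd : ∀ a ∈ A, a % 2 = 1 := fun a haA => by
    have := hpar 0 (by omega) a ((hmemA a).1 haA).1 ((hmemA a).1 haA).2
    omega
  set S := A.image fun a => c (a - 1) with hS
  set O := ((range N).filter fun n => n % 2 = 1).image c with hO
  have hScard : S.card = A.card := by
    refine card_image_of_injOn fun x hx y hy e => ?_
    have hx' := (hmemA x).1 hx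
    have hy' := (hmemA y).1 hy
    have := hc.inj (x - 1) (by omega) (y - 1) (by omega) e
    have := hA0 x hx
    have := hA0 y hy
    omega
  have hSH : S ⊆ H := by
    intro v hv
    obtain ⟨n, hn, rfl⟩ := mem_image.1 hv
    have := ((hmemA n).1 hn).1
    exact hcH _ (by omega)
  have hSind : Ind G S := by
    intro v hv v' hv' e
    obtain ⟨n, hn, rfl⟩ := mem_image.1 hv
    obtain ⟨m, hm, rfl⟩ := mem_image.1 hv'
    have h1 := ((hmemA n).1 hn).1
    have h2 := ((hmemA m).1 hm).1
    have h3 := hpar _ (by omega) _ (by omega) e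
    have := hAodd n hn
    have := hAodd m hm
    omega
  have hnb : nb G S ∩ H ⊆ S ∪ O := by
    intro v hv
    obtain ⟨hv1, hv2⟩ := mem_inter.1 hv
    rcases mem_nb.1 hv1 with e | ⟨u, hu, e⟩
    · exact mem_union_left _ e
    · obtain ⟨n, hn, rfl⟩ := mem_image.1 hu
      obtain ⟨h1, h2⟩ := (hmemA n).1 hn
      obtain ⟨m, hm, rfl⟩ := hrot n (hA0 n hn) h1 h2 v hv2 e
      refine mem_union_right _ (mem_image_of_mem c (mem_filter.2 ⟨mem_range.2 hm, ?_⟩))
      have h3 := hpar _ (by omega) _ hm e
      have := hAodd n hn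
      omega
  have hOL : O ⊆ ly G z i := (image_subset_image (filter_subset _ _)).trans hCsub
  have hzO : z ∉ O := fun e => by
    have := ly_unique (layer_zero z) (hOL e)
    omega
  have hzadj : ∀ v ∈ O, ¬ G.Adj z v := fun v hv e => by
    have := ly_adj (layer_zero z) (hOL hv) e
    omega
  have hOind : Ind G (insert z O) := by
    intro v hv v' hv' e
    rcases mem_insert.1 hv with rfl | hv1 <;> rcases mem_insert.1 hv' with rfl | hv2
    · exact G.irrefl e
    · exact hzadj _ hv2 e
    · exact hzadj _ hv1 e.symm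
    · obtain ⟨n, hn, rfl⟩ := mem_image.1 hv1
      obtain ⟨m, hm, rfl⟩ := mem_image.1 hv2
      obtain ⟨hn1, hn2⟩ := mem_filter.1 hn
      obtain ⟨hm1, hm2⟩ := mem_filter.1 hm
      have := hpar _ (mem_range.1 hn1) _ (mem_range.1 hm1) e
      omega
  have h1 := h.alpha _ hOind
  rw [card_insert_of_notMem hzO] at h1
  have h2 := hH S hSH (card_pos.1 (by omega)) hSind
  have h3 := (card_le_card hnb).trans (card_union_le S O)
  have h4 : 3 * S.card ≤ d * S.card := Nat.mul_le_mul_right _ hd
  omega

/-- `ly 1` is the neighbourhood of `z`, nonempty by `exp`; its cliques have at most `d - 1`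
elements.  Otherwise `dense` (`ε = 0`) and `lollipop` (`δ = d - 1`, `D = 2 d`) give a cycle with at
least `k` vertices in it; its first `k` vertices and `z` form a cycle (`hasCyc_of_conn`,
`conn_one`, `X = ly 1`). -/
theorem Ctx.layer_one (h : Ctx G k) {d : ℕ} (hd : 3 ≤ d) (hk : k ≤ 2 * d) (hω : OmegaLe G d)
    (z : V) {a : ℕ} (ha : AlphaLe G (ly G z 1) a) : (ly G z 1).card < d * a := by
  classical
  by_contra hcon
  have hL : d * a + 0 ≤ (ly G z 1).card := by omega
  have hk3 := h.k3
  have hne : (ly G z 1).Nonempty := by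
    have h1 := h.exp {z} (singleton_nonempty z) (ind_singleton z)
    have h2 : nb G {z} ⊆ insert z (ly G z 1) := by
      intro v hv
      rcases mem_nb.1 hv with e | ⟨u, hu, e⟩
      · exact mem_insert.2 (Or.inl (mem_singleton.1 e))
      · rw [mem_singleton.1 hu] at e
        exact mem_insert_of_mem (mem_ly_one.2 e)
    have h3 := (card_le_card h2).trans (card_insert_le _ _)
    rw [card_singleton] at h1
    exact card_pos.1 (by omega)
  have hz : z ∉ ly G z 1 := fun e => G.irrefl (mem_ly_one.1 e)
  obtain ⟨H, hHL, hne', hH⟩ := dense G hne (Nat.zero_le 1) ha hL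
  obtain ⟨N, c, hN, hc, hcH, -⟩ := lollipop G hne' (δ := d - 1) (D := 2 * d) (by omega)
    (fun v hv => by
      have := hH {v} (singleton_subset_iff.2 hv) (singleton_nonempty v) (ind_singleton v)
      rw [card_singleton] at this
      omega)
    (fun K hKH hK => by
      have h1 : Clq G (insert z K) := by
        intro u hu v hv huv
        rcases mem_insert.1 hu with rfl | hu1 <;> rcases mem_insert.1 hv with rfl | hv1
        · exact (huv rfl).elim
        · exact mem_ly_one.1 (hHL (hKH hv1))
        · exact (mem_ly_one.1 (hHL (hKH hu1))).symm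
        · exact hK u hu1 v hv1 huv
      have h2 := hω _ h1
      rw [card_insert_of_notMem fun e => hz (hHL (hKH e))] at h2
      omega)
    (fun u hu v hv huv hadj => by
      have := hH {u, v} (insert_subset hu (singleton_subset_iff.2 hv)) (insert_nonempty _ _)
        (layer_ind_pair hadj)
      rw [card_pair huv] at this
      omega)
  have hmem : ∀ n ≤ k - 1, c n ∈ ly G z 1 := fun n hn => hHL (hcH n (by omega))
  have := hasCyc_of_conn (X := ly G z 1) (f := c) (n := k - 1) (l := 1) hmem
    (fun n hn m hm e => hc.inj n (by omega) m (by omega) e) (fun n hn => hc.adj n (by omega))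
    (conn_one.2 ⟨z, hz, (mem_ly_one.1 (hmem _ le_rfl)).symm,
      mem_ly_one.1 (hmem 0 (Nat.zero_le _))⟩)
  rw [show k - 1 + 1 + 1 = k + 1 by omega] at this
  exact h.nocyc this

end Crest.Agent.R054
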