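import Crest.Agent.R054.Defs

/-! Row 54: the arithmetic of patterns. -/

set_option autoImplicit false

namespace Crest.Agent.R054

open Finset

theorem num_cnt_cons (a : ℕ) (l : List ℕ) : cnt (a :: l) = cnt l + if a = 0 then 0 else 1 := by
  by_cases h : a = 0 <;> simp [cnt, h]

theorem num_zz_cons (a b : ℕ) (l : List ℕ) :
    zz (a :: b :: l) = (if a = 0 ∧ b = 0 then 1 else 0) + zz (b :: l) := rfl

theorem num_zz_split (X : List ℕ) (a : ℕ) (Y : List ℕ) :
    zz (X ++ a :: Y) = zz (X ++ [a]) + zz (a :: Y) := by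
  induction X with
  | nil => simp [zz]
  | cons x X ih =>
    cases X with
    | nil => simp [zz]
    | cons y X =>
      simp only [List.cons_append, num_zz_cons] at ih ⊢
      omega

theorem num_zz_reverse (l : List ℕ) : zz l.reverse = zz l := by
  induction l with
  | nil => rfl
  | cons a l ih =>
    cases l with
    | nil => rfl
    | cons b l =>
      rw [List.reverse_cons] at ih
      rw [List.reverse_cons, List.reverse_cons, List.append_assoc, List.singleton_append,
        num_zz_split, ih, num_zz_cons, num_zz_cons, add_comm]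
      simp [zz, and_comm]

theorem num_zz_zero (B : List ℕ) :
    zz (0 :: (B ++ [0])) + (if B.headD 0 = 0 then 0 else 1) = zz (B ++ [0]) + 1 := by
  cases B with
  | nil => simp [zz]
  | cons b B =>
    simp only [List.cons_append, num_zz_cons, List.headD_cons, true_and]
    split_ifs <;> omega

theorem num_zz_card (a : ℕ) (l : List ℕ) :
    #{h ∈ range l.length | (a :: l).getD h 0 = 0 ∧ (a :: l).getD (h + 1) 0 = 0} = zz (a :: l) := by
  induction l generalizing a with
  | nil => simp [zz]
  | cons b l ih =>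
    rw [num_zz_cons, ← ih b, card_filter, card_filter, List.length_cons, sum_range_succ', add_comm]
    simp

theorem num_sum_ge (c : ℕ) (p : List ℕ) (h : ∀ g ∈ p, g = 0 ∨ c ≤ g) : cnt p * c ≤ p.sum := by
  induction p with
  | nil => simp [cnt]
  | cons a p ih =>
    rw [List.forall_mem_cons] at h
    have := ih h.2
    rw [num_cnt_cons, List.sum_cons, add_mul]
    split_ifs with ha
    · omega
    · have := h.1.resolve_left ha
      omega

theorem num_sum_zero (p : List ℕ) (h : cnt p = 0) : p.sum = 0 := by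
  induction p with
  | nil => rfl
  | cons a p ih =>
    rw [num_cnt_cons] at h
    by_cases ha : a = 0
    · rw [if_pos ha] at h
      simp [ha, ih h]
    · rw [if_neg ha] at h
      omega

/-- Induction on the list (two elements at a time). -/
theorem len_le (p : List ℕ) :
    p.length + (if p.headD 0 = 0 then 0 else 1) + (if p.getLastD 0 = 0 then 0 else 1) ≤
      zz p + 2 * cnt p + 1 := by
  induction p with
  | nil => simp
  | cons a p ih =>
    cases p with
    | nil => by_cases h : a = 0 <;> simp [zz, cnt, h]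
    | cons b l =>
      have hl : (a :: b :: l).getLastD 0 = (b :: l).getLastD 0 := by simp
      rw [hl, num_zz_cons, num_cnt_cons a]
      simp only [List.length_cons, List.headD_cons] at ih ⊢
      by_cases ha : a = 0 <;> by_cases hb : b = 0 <;>
        simp only [ha, hb, if_true, if_false, and_self, and_true, and_false] at ih ⊢ <;>
        omega

theorem Zer.refl (p : List ℕ) : Zer p p := List.forall₂_same.2 fun _ _ => .inl rfl

theorem Zer.trans {p q r : List ℕ} (h : Zer p q) (h' : Zer q r) : Zer p r := by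
  induction h generalizing r with
  | nil => exact h'
  | cons h1 _ ih =>
    cases h' with
    | cons h2 h3 => exact .cons (by omega) (ih h3)

theorem Zer.length {p q : List ℕ} (h : Zer p q) : q.length = p.length :=
  (List.Forall₂.length_eq h).symm

theorem num_zer_aux {p q : List ℕ} (h : Zer p q) :
    cnt q ≤ cnt p ∧ (q.sum < p.sum → cnt q < cnt p) := by
  induction h with
  | nil => simp
  | cons h1 _ ih =>
    rw [num_cnt_cons, num_cnt_cons, List.sum_cons, List.sum_cons]
    split_ifs <;> omega

theorem Zer.cnt_lt {p q : List ℕ} (h : Zer p q) (hs : q.sum < p.sum) : cnt q < cnt p :=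
  (num_zer_aux h).2 hs

theorem exists_zer {p : List ℕ} {g : ℕ} (hg : g ∈ p) : ∃ q, Zer p q ∧ q.sum + g = p.sum := by
  induction p with
  | nil => simp at hg
  | cons a p ih =>
    rcases List.mem_cons.1 hg with rfl | h
    · exact ⟨0 :: p, .cons (.inr rfl) (Zer.refl p), by simp [add_comm]⟩
    · obtain ⟨q, hq, hs⟩ := ih h
      exact ⟨a :: q, .cons (.inl rfl) hq, by simp only [List.sum_cons]; omega⟩

/-- Strong induction on `p.sum`.  If `p` itself fails then `p.sum + l ≥ S + 2 + zz p`.  If
`cnt p = 0` this contradicts `len_le`.  If all nonzero entries are `≥ zz p + 3` then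
`p.sum ≥ cnt p * (zz p + 3) ≥ zz p + 2 * cnt p + 1 ≥ p.length`.  So some nonzero entry is
`≤ zz p + 2`; replace it by zero. -/
theorem drop (S l : ℕ) (p : List ℕ) (h1 : p.sum + 1 ≤ p.length) (h2 : S ≤ p.sum + l)
    (h3 : l ≤ S + p.length) :
    ∃ q, Zer p q ∧ S ≤ q.sum + l ∧ q.sum + l ≤ S + 1 + zz q := by
  induction hn : p.sum using Nat.strong_induction_on generalizing p with
  | _ n ih =>
    subst hn
    by_cases hp : p.sum + l ≤ S + 1 + zz p
    · exact ⟨p, Zer.refl p, h2, hp⟩
    have hl := len_le p
    have hc : cnt p ≠ 0 := fun hc => by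
      have := num_sum_zero p hc
      omega
    have hg : ¬ ∀ g ∈ p, g = 0 ∨ zz p + 3 ≤ g := fun h => by
      have h4 := num_sum_ge _ p h
      have h5 : zz p ≤ cnt p * zz p := Nat.le_mul_of_pos_left _ (Nat.pos_of_ne_zero hc)
      rw [mul_add] at h4
      omega
    push Not at hg
    obtain ⟨g, hg, hg0, hg1⟩ := hg
    obtain ⟨q, hq, hs⟩ := exists_zer hg
    have := hq.length
    obtain ⟨q', hq', h⟩ := ih q.sum (by omega) q (by omega) (by omega) (by omega) rfl
    exact ⟨q', hq.trans hq', h⟩

/-- If `r ≠ 0` use `drop` with `S = p.sum`.  If `r = 0` and `l ≤ zz p + 1` take `q = p`; if some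
nonzero entry is `≤ zz p + 1` replace it by zero and use `drop`. -/
theorem num (p : List ℕ) {l r : ℕ} (h1 : 1 ≤ l) (h2 : l ≤ p.length) (h3 : p.sum + r ≤ p.length) :
    (∃ q, Zer p q ∧ q.sum + l ≤ p.sum + 1 + zz q ∧ (p.sum < q.sum + l ∨
      (p.sum = q.sum + l ∧ cnt q + (if r = 0 then 2 else 1) ≤ cnt p))) ∨
    (r = 0 ∧ zz p + 2 ≤ l ∧ ∀ g ∈ p, g = 0 ∨ zz p + 2 ≤ g) := by
  by_cases hr : r = 0
  · by_cases hl : l ≤ zz p + 1
    · exact .inl ⟨p, Zer.refl p, by omega, .inl (by omega)⟩
    by_cases hg : ∀ g ∈ p, g = 0 ∨ zz p + 2 ≤ g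
    · exact .inr ⟨hr, by omega, hg⟩
    push Not at hg
    obtain ⟨g, hg, hg0, hg1⟩ := hg
    obtain ⟨p', hp', hs⟩ := exists_zer hg
    have := hp'.length
    obtain ⟨q, hq, h4, h5⟩ := drop p.sum l p' (by omega) (by omega) (by omega)
    refine .inl ⟨q, hp'.trans hq, h5, ?_⟩
    rcases h4.lt_or_eq with h | h
    · exact .inl h
    · have := hq.cnt_lt (by omega)
      have := hp'.cnt_lt (by omega)
      exact .inr ⟨h, by rw [if_pos hr]; omega⟩
  · obtain ⟨q, hq, h4, h5⟩ := drop p.sum l p (by omega) (by omega) (by omega)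
    refine .inl ⟨q, hq, h5, ?_⟩
    rcases h4.lt_or_eq with h | h
    · exact .inl h
    · have := hq.cnt_lt (by omega)
      exact .inr ⟨h, by rw [if_neg hr]; omega⟩

theorem sum_getD (p : List ℕ) : ∑ i ∈ range p.length, p.getD i 0 = p.sum := by
  induction p with
  | nil => simp
  | cons a p ih =>
    rw [List.length_cons, sum_range_succ', List.sum_cons, ← ih, add_comm]
    simp

theorem card_getD_ne (p : List ℕ) : #{i ∈ range p.length | p.getD i 0 ≠ 0} = cnt p := by
  induction p with
  | nil => simp [cnt]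
  | cons a p ih =>
    rw [num_cnt_cons, ← ih, card_filter, card_filter, List.length_cons, sum_range_succ']
    simp

theorem num_cyc (a : ℕ) (l : List ℕ) {p : List ℕ} (hp : p = a :: l) :
    #{h ∈ range p.length | p.getD h 0 = 0 ∧ p.getD ((h + 1) % p.length) 0 = 0} =
      zz (p ++ [a]) := by
  subst hp
  rw [List.cons_append, ← num_zz_card]
  have hl : (l ++ [a]).length = (a :: l).length := by simp
  rw [hl]
  congr 1
  refine filter_congr fun h hh => ?_
  rw [mem_range] at hh
  have h1 : (a :: (l ++ [a])).getD h 0 = (a :: l).getD h 0 := by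
    rw [← List.cons_append, List.getD_append _ _ _ _ hh]
  have h2 : (a :: (l ++ [a])).getD (h + 1) 0 = (a :: l).getD ((h + 1) % (a :: l).length) 0 := by
    rcases (Nat.succ_le_of_lt hh).lt_or_eq with h3 | h3
    · rw [Nat.mod_eq_of_lt h3, ← List.cons_append, List.getD_append _ _ _ _ h3]
    · rw [show h + 1 = (a :: l).length from h3, Nat.mod_self, ← List.cons_append,
        List.getD_append_right _ _ _ _ le_rfl]
      simp
  rw [h1, h2]

/-- The number of cyclically consecutive pairs of zeros is `zz (p ++ p.take 1)`; `zz` of a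
concatenation, `zz B.reverse = zz B`. -/
theorem tau_le (A B C : List ℕ) {p : List ℕ} (hp : p = A ++ 0 :: (B ++ 0 :: C)) :
    #{h ∈ range p.length | p.getD h 0 = 0 ∧ p.getD ((h + 1) % p.length) 0 = 0} +
      (if B.headD 0 = 0 then 0 else 1) + (if (C ++ A).headD 0 = 0 then 0 else 1) ≤
      zz ((C ++ A) ++ 0 :: B.reverse) + 2 := by
  have h1 := num_zz_zero B
  have h2 := num_zz_zero (C ++ A)
  have h3 : zz ((C ++ A) ++ 0 :: B.reverse) = zz ((C ++ A) ++ [0]) + zz (B ++ [0]) := by
    rw [num_zz_split, ← num_zz_reverse (B ++ [0])]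
    simp
  have h4 : #{h ∈ range p.length | p.getD h 0 = 0 ∧ p.getD ((h + 1) % p.length) 0 = 0} =
      zz (0 :: (B ++ [0])) + zz (0 :: ((C ++ A) ++ [0])) := by
    cases A with
    | nil =>
      rw [num_cyc 0 _ hp, hp]
      have := num_zz_split (0 :: B) 0 (C ++ [0])
      simpa using this
    | cons a A =>
      rw [num_cyc a _ hp, hp]
      have e1 := num_zz_split (a :: A) 0 (B ++ 0 :: (C ++ [a]))
      have e2 := num_zz_split (0 :: B) 0 (C ++ [a])
      have e3 := num_zz_split (0 :: C) a (A ++ [0])
      simp only [List.cons_append, List.append_assoc] at e1 e2 e3 ⊢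
      omega
  omega

end Crest.Agent.R054
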