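import Crest.Agent.R054.Sys
import Crest.Agent.R054.Num

/-! Row 54: optimal systems. -/

set_option autoImplicit false

namespace Crest.Agent.R054

open Finset

variable {V : Type*} {G : SimpleGraph V} {Q : Finset V} {k : ℕ}

theorem optrun_pat_append (A B : List (V × List V)) : pat (A ++ B) = pat A ++ pat B := by
  simp [pat]

theorem optrun_pat_cons (q : V) (g : List V) (L : List (V × List V)) :
    pat ((q, g) :: L) = g.length :: pat L := rfl

theorem optrun_length_pat (L : List (V × List V)) : (pat L).length = L.length := by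
  simp [pat]

theorem optrun_cnt_append (p q : List ℕ) : cnt (p ++ q) = cnt p + cnt q := by
  simp [cnt]

theorem optrun_cnt_cons (v : ℕ) (p : List ℕ) :
    cnt (v :: p) = cnt p + if v = 0 then 0 else 1 := by
  by_cases h : v = 0 <;> simp [cnt, h]

theorem optrun_cnt_reverse (p : List ℕ) : cnt p.reverse = cnt p := by
  simp [cnt]

theorem optrun_flat_map (l : List V) : flat (l.map fun q => (q, ([] : List V))) = l := by
  induction l with
  | nil => rfl
  | cons a l ih => rw [List.map_cons, flat_cons, ih]; rfl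

theorem optrun_sys (hQ : Clq G Q) (h2 : 2 ≤ Q.card) :
    Sys G Q (Q.toList.map fun q => (q, ([] : List V))) := by
  have hn := Q.nodup_toList
  have hm : ∀ v ∈ Q.toList, v ∈ Q := fun v hv => mem_toList.1 hv
  have hl : 2 ≤ Q.toList.length := by rwa [length_toList]
  refine ⟨by simp, by simp, by rwa [optrun_flat_map], ?_⟩
  rw [optrun_flat_map]
  generalize Q.toList = l at *
  match l, hl with
  | a :: b :: t, _ =>
    rw [List.isChain_append]
    refine ⟨List.Pairwise.isChain (List.Pairwise.imp_of_mem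
      (fun h1 h2 h3 => hQ _ (hm _ h1) _ (hm _ h2) h3) hn), by simp, fun x hx y hy => ?_⟩
    have hy' : y = a := by simpa [eq_comm] using hy
    have hx' : x ∈ b :: t := List.mem_of_getLast? (by simpa using hx)
    subst hy'
    exact hQ _ (hm _ (List.mem_cons_of_mem _ hx')) _ (hm _ List.mem_cons_self)
      fun h => (List.nodup_cons.1 hn).1 (h ▸ hx')

theorem optrun_sublist (L : List (V × List V)) : (L.map Prod.fst).Sublist (flat L) := by
  induction L with
  | nil => exact List.Sublist.slnil
  | cons b L ih =>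
    obtain ⟨q, g⟩ := b
    rw [List.map_cons, flat_cons]
    exact (ih.trans (List.sublist_append_right _ _)).cons_cons q

/-- `Q.toList.map (·, [])` is a system; maximise the sum, then minimise `cnt`. -/
theorem exists_opt (hQ : Clq G Q) (h2 : 2 ≤ Q.card) (hk : Q.card ≤ k) : ∃ L, Opt G Q k L := by
  classical
  have h0 : ∃ s, ∃ L, Sys G Q L ∧ L.length = Q.card ∧ (pat L).sum + Q.card + s = k := by
    refine ⟨k - Q.card, _, optrun_sys hQ h2, by simp, ?_⟩
    have : (pat (Q.toList.map fun q => (q, ([] : List V)))).sum = 0 := by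
      simp [pat, List.sum_eq_zero_iff]
    omega
  have h1 : ∃ c, ∃ L, Sys G Q L ∧ L.length = Q.card ∧ (pat L).sum + Q.card + Nat.find h0 = k ∧
      cnt (pat L) = c :=
    let ⟨L, a1, a2, a3⟩ := Nat.find_spec h0; ⟨_, L, a1, a2, a3, rfl⟩
  obtain ⟨L, a1, a2, a3, a4⟩ := Nat.find_spec h1
  refine ⟨L, a1, a2, by omega, ?_⟩
  rintro _ ⟨L', b1, rfl⟩ b2 b3
  rw [optrun_length_pat] at b2
  have c1 := Nat.find_min' h0 (m := k - ((pat L').sum + Q.card)) ⟨L', b1, b2, by omega⟩
  by_cases hs : (pat L').sum = (pat L).sum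
  · exact Or.inr ⟨hs, a4 ▸ Nat.find_min' h1 ⟨L', b1, b2, by omega, rfl⟩⟩
  · left; omega

theorem Opt.rot {A B : List (V × List V)} (h : Opt G Q k (A ++ B)) : Opt G Q k (B ++ A) := by
  obtain ⟨a1, a2, a3, a4⟩ := h
  simp only [optrun_pat_append, List.sum_append, List.length_append, optrun_cnt_append] at a2 a3 a4
  refine ⟨a1.rot, ?_, ?_, ?_⟩ <;>
    simp only [optrun_pat_append, List.sum_append, List.length_append, optrun_cnt_append]
  · omega
  · omega
  · intro p b1 b2 b3
    have := a4 p b1 b2 b3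
    omega

/-- The first entries are `Q.card` different elements of `Q`. -/
theorem Opt.mem_flat {L : List (V × List V)} (h : Opt G Q k L) {q : V} (hq : q ∈ Q) :
    q ∈ flat L := by
  classical
  have h1 := optrun_sublist L
  have h2 : (L.map Prod.fst).toFinset ⊆ Q := fun v hv => by
    obtain ⟨b, hb, rfl⟩ := List.mem_map.1 (List.mem_toFinset.1 hv)
    exact h.sys.fst b hb
  have h3 := eq_of_subset_of_card_le h2 (by
    rw [List.toFinset_card_of_nodup (h.sys.nodup.sublist h1), List.length_map, h.len])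
  exact h1.subset (List.mem_toFinset.1 (h3 ▸ hq))

/-- `Real.cyc` if the length is at least `k + 1`, `opt` otherwise. -/
theorem Opt.forbid (hQ : Clq G Q) (hc : ¬ HasCyc G (k + 1)) {L : List (V × List V)}
    (h : Opt G Q k L) {v : ℕ} {p : List ℕ} (hp : Real G Q (v :: p)) (hl : p.length + 1 = Q.card)
    (h1 : v + p.sum + Q.card ≤ k + 1 + zz p)
    (h2 : (pat L).sum < v + p.sum ∨ ((pat L).sum = v + p.sum ∧ cnt (v :: p) < cnt (pat L))) :
    False := by
  by_cases h3 : k + 1 ≤ v + p.sum + Q.card
  · exact hc (hp.cyc hQ (by omega) (by omega))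
  · have := h.opt _ hp (by simpa using hl) (by rw [List.sum_cons]; omega)
    rw [List.sum_cons] at this
    omega

/-- `Sys.ins` and `forbid`. -/
theorem Opt.ins (hQ : Clq G Q) (hc : ¬ HasCyc G (k + 1)) {C : List (V × List V)} {q : V}
    {g₁ g₂ : List V} (h : Opt G Q k ((q, g₁ ++ g₂) :: C)) {X : Finset V}
    (hX : ∀ v ∈ flat ((q, g₁ ++ g₂) :: C), v ∈ X) :
    ¬ Conn G X (g₁.getLastD q) ((g₂ ++ flat C).headD q) 1 := by
  intro hcon
  have h1 := h.len
  have h2 := h.le
  refine h.forbid hQ hc (h.sys.ins hX (fun v hv => hX v (h.mem_flat hv)) hcon) ?_ ?_ (Or.inl ?_) <;>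
    simp only [optrun_pat_cons, List.sum_cons, List.length_append, List.length_cons,
      optrun_length_pat] at * <;> omega

/-- `Sys.reroute`, `num` with `r = |ga| + |gb|`, `Real.zer`, `forbid`. -/
theorem Opt.run (hQ : Clq G Q) (hc : ¬ HasCyc G (k + 1)) (hk : k + 1 ≤ 2 * Q.card)
    {B C : List (V × List V)} {a b : V} {ga gb : List V}
    (h : Opt G Q k ((a, ga) :: (B ++ (b, gb) :: C))) {X : Finset V}
    (hX : ∀ v ∈ flat ((a, ga) :: (B ++ (b, gb) :: C)), v ∈ X) {l : ℕ} (h1 : 1 ≤ l)
    (h2 : l < Q.card) (hcon : Conn G X ((ga ++ flat B).headD b) ((gb ++ flat C).headD a) l) :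
    ga = [] ∧ gb = [] ∧ zz (pat C ++ 0 :: (pat B).reverse) + 2 ≤ l ∧
      ∀ g ∈ pat C ++ 0 :: (pat B).reverse, g = 0 ∨ zz (pat C ++ 0 :: (pat B).reverse) + 2 ≤ g := by
  have h3 := h.len
  have h4 := h.le
  have h5 := h.sys.reroute hQ hX (fun v hv => hX v (h.mem_flat hv)) hcon
  have e1 : (pat C ++ 0 :: (pat B).reverse).length + 1 = Q.card := by
    simp only [List.length_append, List.length_cons, List.length_reverse, optrun_length_pat] at *
    omega
  have e2 : (pat ((a, ga) :: (B ++ (b, gb) :: C))).sum =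
      (pat C ++ 0 :: (pat B).reverse).sum + (ga.length + gb.length) := by
    simp only [optrun_pat_cons, optrun_pat_append, List.sum_cons, List.sum_append, List.sum_reverse]
    omega
  have e3 : cnt (pat ((a, ga) :: (B ++ (b, gb) :: C))) = cnt (pat C ++ 0 :: (pat B).reverse) +
      (if ga.length = 0 then 0 else 1) + (if gb.length = 0 then 0 else 1) := by
    simp only [optrun_pat_cons, optrun_pat_append, optrun_cnt_cons, optrun_cnt_append,
      optrun_cnt_reverse, if_true]
    omega
  generalize pat C ++ 0 :: (pat B).reverse = P at *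
  rcases num P (r := ga.length + gb.length) h1 (by omega) (by omega) with
    ⟨q, a1, a2, a3⟩ | ⟨a1, a2, a3⟩
  · have a4 := a1.length
    refine (h.forbid hQ hc (h5.zer hQ a1) (by omega) (by omega) ?_).elim
    rw [optrun_cnt_cons, e2, e3]
    split_ifs at * <;> omega
  · exact ⟨List.length_eq_zero_iff.1 (by omega), List.length_eq_zero_iff.1 (by omega), a2, a3⟩

end Crest.Agent.R054
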