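import Crest.Agent.R054.Basic

/-! Row 54: operations on systems. -/

set_option autoImplicit false

namespace Crest.Agent.R054

open Finset

variable {V : Type*} {G : SimpleGraph V} {Q : Finset V}

theorem flat_nil : flat ([] : List (V × List V)) = [] := rfl

theorem flat_cons (q : V) (g : List V) (L : List (V × List V)) :
    flat ((q, g) :: L) = q :: (g ++ flat L) := by
  simp [flat]

theorem flat_append (A B : List (V × List V)) : flat (A ++ B) = flat A ++ flat B := by
  simp [flat]

theorem sys_pat_cons (q : V) (g : List V) (L : List (V × List V)) :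
    pat ((q, g) :: L) = g.length :: pat L := rfl

theorem sys_pat_append (A B : List (V × List V)) : pat (A ++ B) = pat A ++ pat B :=
  List.map_append

theorem sys_chain_rot {R : V → V → Prop} {a b : List V}
    (h : List.IsChain R (a ++ b ++ (a ++ b).take 1)) :
    List.IsChain R (b ++ a ++ (b ++ a).take 1) := by
  rcases a with _ | ⟨x, a⟩
  · simpa using h
  rcases b with _ | ⟨y, b⟩
  · simpa using h
  have h1 : List.IsChain R (x :: (a ++ y :: (b ++ [x]))) := by simpa using h
  have h2 : List.IsChain R (y :: (b ++ x :: (a ++ [y]))) := by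
    rw [List.isChain_cons_split] at h1 ⊢
    exact h1.symm
  simpa using h2

theorem sys_chain_cons {R : V → V → Prop} {q : V} {g : List V} {L : List (V × List V)} :
    List.IsChain R (flat ((q, g) :: L) ++ (flat ((q, g) :: L)).take 1) ↔
      List.IsChain R (q :: (g ++ flat L ++ [q])) := by
  rw [flat_cons]
  rfl

theorem sys_glue {S : V → V → Prop} {x y : V} {l₁ l₂ R : List V} (h1 : List.IsChain S (x :: l₁))
    (h2 : List.IsChain S (l₂ ++ [y]))
    (h3 : List.IsChain S (l₁.getLastD x :: (R ++ [l₂.headD y]))) :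
    List.IsChain S (x :: (l₁ ++ R ++ l₂ ++ [y])) := by
  induction l₁ generalizing x with
  | nil =>
    rcases l₂ with _ | ⟨c, l₂⟩
    · simpa using h3
    · rw [List.nil_append, List.append_assoc, List.cons_append, List.isChain_cons_split]
      exact ⟨h3, h2⟩
  | cons z l₁ ih =>
    rw [List.isChain_cons_cons] at h1
    rw [List.getLastD_cons] at h3
    exact List.isChain_cons_cons.2 ⟨h1.1, ih h1.2 h3⟩

theorem length_flat (L : List (V × List V)) : (flat L).length = (pat L).sum + L.length := by
  induction L with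
  | nil => rfl
  | cons b L ih =>
    obtain ⟨q, g⟩ := b
    rw [flat_cons, sys_pat_cons, List.length_cons, List.length_append, ih, List.sum_cons,
      List.length_cons]
    omega

/-- Cyclic chains can be rotated: prove `IsChain R (a ++ b ++ (a ++ b).take 1) →
IsChain R (b ++ a ++ (b ++ a).take 1)` for lists (`List.isChain_append`, cases on `a`, `b`). -/
theorem Sys.rot {A B : List (V × List V)} (h : Sys G Q (A ++ B)) : Sys G Q (B ++ A) := by
  refine ⟨fun b hb => h.fst b (List.perm_append_comm.subset hb),
    fun b hb => h.gap b (List.perm_append_comm.subset hb), ?_, ?_⟩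
  · have := h.nodup
    rw [flat_append] at this ⊢
    exact List.perm_append_comm.nodup_iff.1 this
  · have := h.chain
    rw [flat_append] at this ⊢
    exact sys_chain_rot this

theorem sys_front (hQ : Clq G Q) {M D : List (V × List V)} {q q' : V} {g g' : List V}
    (h : Sys G Q ((q, g) :: (M ++ (q', g') :: D))) : Sys G Q ((q, []) :: (q', g') :: D) := by
  have hq : q ∈ Q := h.fst (q, g) List.mem_cons_self
  have hq' : q' ∈ Q := h.fst (q', g') (by simp)
  have hn : (flat ((q, []) :: (q', g') :: D)).Nodup := by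
    refine List.Nodup.sublist ?_ h.nodup
    rw [flat_cons, flat_cons q g, flat_append, List.nil_append, ← List.append_assoc]
    exact (List.sublist_append_right _ _).cons_cons _
  refine ⟨?_, ?_, hn, ?_⟩
  · intro b hb
    rcases List.mem_cons.1 hb with rfl | hb
    · exact hq
    · exact h.fst b (List.mem_cons_of_mem _ (List.mem_append_right _ hb))
  · intro b hb
    rcases List.mem_cons.1 hb with rfl | hb
    · simp
    · exact h.gap b (List.mem_cons_of_mem _ (List.mem_append_right _ hb))
  · have h1 := sys_chain_cons.1 h.chain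
    rw [flat_append, flat_cons, ← List.append_assoc g, List.append_assoc, List.cons_append,
      List.isChain_cons_split] at h1
    have hne : q ≠ q' := by
      rintro rfl
      simp [flat_cons] at hn
    rw [sys_chain_cons, flat_cons]
    exact List.isChain_cons_cons.2 ⟨hQ q hq q' hq' hne, h1.2⟩

theorem sys_real_rot {p p' : List ℕ} (h : Real G Q (p ++ p')) : Real G Q (p' ++ p) := by
  obtain ⟨L, hL, e⟩ := h
  obtain ⟨A, B, rfl, rfl, rfl⟩ := List.map_eq_append_iff.1 e
  exact ⟨B ++ A, hL.rot, sys_pat_append _ _⟩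

theorem sys_rb (B : List (V × List V)) (b : V) (w : List V) (hb : b ∈ Q)
    (h1 : ∀ y ∈ B, y.1 ∈ Q) (h2 : ∀ y ∈ B, ∀ v ∈ y.2, v ∉ Q) (hw : ∀ v ∈ w, v ∉ Q) :
    ∃ M : List (V × List V), flat M = b :: ((flat B).reverse ++ w) ∧
      pat M = (pat B).reverse ++ [w.length] ∧ (∀ y ∈ M, y.1 ∈ Q) ∧ ∀ y ∈ M, ∀ v ∈ y.2, v ∉ Q := by
  induction B generalizing w with
  | nil => exact ⟨[(b, w)], by simp [flat], by simp [pat], by simpa using hb, by simpa using hw⟩
  | cons y B ih =>
    obtain ⟨q, g⟩ := y
    obtain ⟨M, e1, e2, h3, h4⟩ := ih g.reverse (fun y hy => h1 y (List.mem_cons_of_mem _ hy))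
      (fun y hy => h2 y (List.mem_cons_of_mem _ hy))
      (fun v hv => h2 _ List.mem_cons_self v (List.mem_reverse.1 hv))
    refine ⟨M ++ [(q, w)], ?_, ?_, ?_, ?_⟩
    · rw [flat_append, e1, flat_cons, flat_cons, flat_nil]
      simp
    · rw [sys_pat_append, e2, sys_pat_cons, sys_pat_cons]
      simp [pat]
    · intro y hy
      rcases List.mem_append.1 hy with hy | hy
      · exact h3 y hy
      · rw [List.mem_singleton.1 hy]
        exact h1 (q, g) List.mem_cons_self
    · intro y hy
      rcases List.mem_append.1 hy with hy | hy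
      · exact h4 y hy
      · rw [List.mem_singleton.1 hy]
        exact hw

theorem sys_zz (p : List ℕ) (h : 1 ≤ zz p) :
    ∃ A B, p = A ++ 0 :: 0 :: B ∧ zz (A ++ 0 :: B) + 1 = zz p := by
  induction p with
  | nil => simp [zz] at h
  | cons a p ih =>
    rcases p with _ | ⟨b, l⟩
    · simp [zz] at h
    by_cases hab : a = 0 ∧ b = 0
    · obtain ⟨rfl, rfl⟩ := hab
      exact ⟨[], l, rfl, by simp [zz, Nat.add_comm]⟩
    · rw [zz, if_neg hab, Nat.zero_add] at h ⊢
      obtain ⟨A, B, e, hz⟩ := ih h
      refine ⟨a :: A, B, by rw [e]; rfl, ?_⟩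
      rw [← hz]
      rcases A with _ | ⟨c, A⟩
      · obtain rfl : b = 0 := (List.cons.inj e).1
        rw [List.cons_append, List.nil_append, zz, if_neg hab, Nat.zero_add]
      · obtain rfl : b = c := (List.cons.inj e).1
        rw [List.cons_append, List.cons_append, zz, if_neg hab, Nat.zero_add]

/-- Replace a gap by the edge of the clique (rotate the block to the front). -/
theorem Sys.zero (hQ : Clq G Q) {A B : List (V × List V)} {q : V} {g : List V}
    (h : Sys G Q (A ++ (q, g) :: B)) (hne : A ≠ []) : Sys G Q (A ++ (q, []) :: B) := by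
  have h1 : Sys G Q ((q, g) :: (B ++ A)) := h.rot
  rcases e : B ++ A with _ | ⟨⟨q', g'⟩, D⟩
  · exact absurd (List.append_eq_nil_iff.1 e).2 hne
  · rw [e] at h1
    have h2 := sys_front hQ (M := []) h1
    rw [← e] at h2
    exact Sys.rot (A := (q, []) :: B) h2

/-- Delete a clique vertex between two clique vertices. -/
theorem Sys.del (hQ : Clq G Q) {A B : List (V × List V)} {q q' : V}
    (h : Sys G Q (A ++ (q, []) :: (q', []) :: B)) (hne : A ≠ []) :
    Sys G Q (A ++ (q, []) :: B) := by
  have h1 : Sys G Q ((q, []) :: (q', []) :: (B ++ A)) := h.rot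
  rcases e : B ++ A with _ | ⟨⟨q'', g'⟩, D⟩
  · exact absurd (List.append_eq_nil_iff.1 e).2 hne
  · rw [e] at h1
    have h2 := sys_front hQ (M := [(q', [])]) h1
    rw [← e] at h2
    exact Sys.rot (A := (q, []) :: B) h2

theorem sys_real_zero (hQ : Clq G Q) {A B : List ℕ} {x : ℕ} (hA : A ≠ [])
    (h : Real G Q (A ++ x :: B)) : Real G Q (A ++ 0 :: B) := by
  obtain ⟨L, hL, e⟩ := h
  obtain ⟨A', L', rfl, rfl, e'⟩ := List.map_eq_append_iff.1 e
  obtain ⟨⟨q, g⟩, B', rfl, -, rfl⟩ := List.map_eq_cons_iff.1 e'
  exact ⟨_, hL.zero hQ (by rintro rfl; exact hA rfl), sys_pat_append _ _⟩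

theorem sys_real_del (hQ : Clq G Q) {A B : List ℕ} (hA : A ≠ [])
    (h : Real G Q (A ++ 0 :: 0 :: B)) : Real G Q (A ++ 0 :: B) := by
  obtain ⟨L, hL, e⟩ := h
  obtain ⟨A', L', rfl, rfl, e'⟩ := List.map_eq_append_iff.1 e
  obtain ⟨⟨q, g⟩, L'', rfl, hg, e''⟩ := List.map_eq_cons_iff.1 e'
  obtain ⟨⟨q', g'⟩, B', rfl, hg', rfl⟩ := List.map_eq_cons_iff.1 e''
  obtain rfl : g = [] := List.length_eq_zero_iff.1 hg
  obtain rfl : g' = [] := List.length_eq_zero_iff.1 hg'
  exact ⟨_, hL.del hQ (by rintro rfl; exact hA rfl), sys_pat_append _ _⟩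

/-- Insert a vertex between two consecutive vertices. -/
theorem Sys.ins {C : List (V × List V)} {q : V} {g₁ g₂ : List V}
    (h : Sys G Q ((q, g₁ ++ g₂) :: C)) {X : Finset V}
    (hX : ∀ v ∈ flat ((q, g₁ ++ g₂) :: C), v ∈ X) (hQX : Q ⊆ X)
    (hc : Conn G X (g₁.getLastD q) ((g₂ ++ flat C).headD q) 1) :
    Real G Q ((g₁.length + g₂.length + 1) :: pat C) := by
  classical
  obtain ⟨R, hR, hRn, hRX, hRc⟩ := hc
  refine ⟨(q, g₁ ++ R ++ g₂) :: C, ⟨?_, ?_, ?_, ?_⟩, ?_⟩
  · intro b hb
    rcases List.mem_cons.1 hb with rfl | hb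
    · exact h.fst (q, g₁ ++ g₂) List.mem_cons_self
    · exact h.fst b (List.mem_cons_of_mem _ hb)
  · intro b hb v hv
    rcases List.mem_cons.1 hb with rfl | hb
    · simp only [List.mem_append] at hv
      rcases hv with (hv | hv) | hv
      · exact h.gap _ List.mem_cons_self v (List.mem_append_left _ hv)
      · exact fun hq => hRX v hv (hQX hq)
      · exact h.gap _ List.mem_cons_self v (List.mem_append_right _ hv)
    · exact h.gap b (List.mem_cons_of_mem _ hb) v hv
  · refine (List.Perm.nodup_iff (l₂ := R ++ flat ((q, g₁ ++ g₂) :: C)) ?_).2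
      (List.nodup_append.2 ⟨hRn, h.nodup, fun x hx y hy e => hRX x hx (e ▸ hX y hy)⟩)
    refine List.perm_iff_count.2 fun x => ?_
    simp only [flat_cons, List.count_cons, List.count_append]
    omega
  · have h1 := sys_chain_cons.1 h.chain
    rw [List.append_assoc, List.append_assoc, ← List.cons_append, ← List.append_assoc g₂] at h1
    have := sys_glue h1.left_of_append h1.right_of_append hRc
    rw [sys_chain_cons]
    simpa only [List.append_assoc] using this
  · rw [sys_pat_cons, List.length_append, List.length_append, hR]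
    congr 1
    omega

/-- The new cycle is `a, b, reverse (ga ++ flat B), R, gb, flat C`.  With
`rb [] b w = [(b, w)]`, `rb ((q, g) :: B) b w = rb B b g.reverse ++ [(q, w)]` one has
`flat (rb B b w) = b :: ((flat B).reverse ++ w)` and `pat (rb B b w) = (pat B).reverse ++ [|w|]`; the
new system is `(a, []) :: rb B b (ga.reverse ++ R ++ gb) ++ C`, rotated (`Sys.rot`). -/
theorem Sys.reroute (hQ : Clq G Q) {B C : List (V × List V)} {a b : V} {ga gb : List V}
    (h : Sys G Q ((a, ga) :: (B ++ (b, gb) :: C))) {X : Finset V}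
    (hX : ∀ v ∈ flat ((a, ga) :: (B ++ (b, gb) :: C)), v ∈ X) (hQX : Q ⊆ X) {l : ℕ}
    (hc : Conn G X ((ga ++ flat B).headD b) ((gb ++ flat C).headD a) l) :
    Real G Q ((ga.length + l + gb.length) :: (pat C ++ 0 :: (pat B).reverse)) := by
  classical
  obtain ⟨R, hR, hRn, hRX, hRc⟩ := hc
  have ha : a ∈ Q := h.fst (a, ga) List.mem_cons_self
  have hb : b ∈ Q := h.fst (b, gb) (by simp)
  obtain ⟨M, hM1, hM2, hM3, hM4⟩ := sys_rb B b (ga.reverse ++ R ++ gb) hb
    (fun y hy => h.fst y (by simp [hy])) (fun y hy => h.gap y (by simp [hy])) (by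
      intro v hv
      simp only [List.mem_append, List.mem_reverse] at hv
      rcases hv with (hv | hv) | hv
      · exact h.gap (a, ga) List.mem_cons_self v hv
      · exact fun hq => hRX v hv (hQX hq)
      · exact h.gap (b, gb) (by simp) v hv)
  have hab : a ≠ b := by
    rintro rfl
    have := h.nodup
    simp [flat_cons, flat_append] at this
  have key : Sys G Q ((a, []) :: (M ++ C)) := by
    refine ⟨?_, ?_, ?_, ?_⟩
    · intro y hy
      simp only [List.mem_cons, List.mem_append] at hy
      rcases hy with rfl | hy | hy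
      · exact ha
      · exact hM3 y hy
      · exact h.fst y (by simp [hy])
    · intro y hy
      simp only [List.mem_cons, List.mem_append] at hy
      rcases hy with rfl | hy | hy
      · simp
      · exact hM4 y hy
      · exact h.gap y (by simp [hy])
    · refine (List.Perm.nodup_iff (l₂ := R ++ flat ((a, ga) :: (B ++ (b, gb) :: C))) ?_).2
        (List.nodup_append.2 ⟨hRn, h.nodup, fun x hx y hy e => hRX x hx (e ▸ hX y hy)⟩)
      refine List.perm_iff_count.2 fun x => ?_
      simp only [flat_cons, flat_append, hM1, List.count_cons, List.count_append,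
        List.count_reverse, List.count_nil]
      omega
    · have h1 := sys_chain_cons.1 h.chain
      rw [flat_append, flat_cons, ← List.append_assoc ga, List.append_assoc, List.cons_append,
        List.isChain_cons_split] at h1
      have h2 : List.IsChain G.Adj (b :: (ga ++ flat B).reverse) := by
        have := h1.1.tail
        rw [← List.reverse_reverse (List.tail _), List.isChain_reverse] at this
        simpa using this.imp fun _ _ h => h.symm
      have h3 := sys_glue h2 h1.2.tail (R := R) (by
        rwa [List.getLastD_eq_getLast?, List.getLast?_reverse, ← List.headD_eq_head?_getD])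
      rw [sys_chain_cons, flat_append, hM1]
      simp only [List.nil_append, List.cons_append]
      refine List.isChain_cons_cons.2 ⟨hQ a ha b hb hab, ?_⟩
      simpa only [List.append_assoc, List.reverse_append] using h3
  have h4 : Real G Q ((0 :: (pat B).reverse) ++ ((ga.length + l + gb.length) :: pat C)) := by
    refine ⟨_, key, ?_⟩
    rw [sys_pat_cons, sys_pat_append, hM2]
    simp [hR, Nat.add_assoc]
  exact sys_real_rot h4

theorem Real.hasCyc {p : List ℕ} (h : Real G Q p) : HasCyc G (p.sum + p.length) := by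
  obtain ⟨L, hL, rfl⟩ := h
  exact ⟨flat L, by rw [length_flat, pat, List.length_map], hL.nodup, hL.chain⟩

/-- Induction: generalise to `Real G Q (A ++ p) → A ≠ [] → Zer p p' → Real G Q (A ++ p')`. -/
theorem Real.zer (hQ : Clq G Q) {v : ℕ} {p p' : List ℕ} (h : Real G Q (v :: p)) (hz : Zer p p') :
    Real G Q (v :: p') := by
  have key : ∀ A : List ℕ, A ≠ [] → Real G Q (A ++ p) → Real G Q (A ++ p') := by
    clear h
    induction hz with
    | nil => exact fun _ _ h => h
    | @cons x y p p' hxy _ ih =>
      intro A hA h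
      have h1 : Real G Q (A ++ y :: p) := by
        rcases hxy with rfl | rfl
        · exact h
        · exact sys_real_zero hQ hA h
      have := ih (A ++ [y]) (by simp) (by simpa using h1)
      simpa using this
  exact key [v] (by simp) h

/-- Delete clique vertices one at a time: if `zz p ≥ 1` then `p = A ++ 0 :: 0 :: B` and
`zz (A ++ 0 :: B) + 1 = zz p`. -/
theorem Real.cyc (hQ : Clq G Q) {v : ℕ} {p : List ℕ} (h : Real G Q (v :: p)) {n : ℕ}
    (h1 : v + p.sum + p.length + 1 ≤ n + zz p) (h2 : n ≤ v + p.sum + p.length + 1) :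
    HasCyc G n := by
  obtain ⟨d, hd⟩ := Nat.exists_eq_add_of_le h2
  clear h2
  induction d generalizing p with
  | zero =>
    have := h.hasCyc
    rw [List.sum_cons, List.length_cons, ← Nat.add_assoc, hd] at this
    exact this
  | succ d ih =>
    obtain ⟨A, B, rfl, hz⟩ := sys_zz p (by omega)
    have h3 : Real G Q (v :: (A ++ 0 :: B)) := sys_real_del hQ (A := v :: A) (by simp) h
    simp only [List.sum_append, List.sum_cons, List.length_append, List.length_cons] at h1 hd
    refine ih h3 ?_ ?_ <;>
      simp only [List.sum_append, List.sum_cons, List.length_append, List.length_cons] <;> omega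

end Crest.Agent.R054
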