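import Crest.Agent.R054.Basic

/-! Row 54: breadth first search. -/

set_option autoImplicit false

namespace Crest.Agent.R054

open Finset

variable {V : Type*} [Fintype V] [DecidableEq V] {G : SimpleGraph V} {z : V}

theorem bl_mono {i j : ℕ} (h : i ≤ j) : bl G z i ⊆ bl G z j := by
  induction h with
  | refl => exact subset_rfl
  | step _ ih => exact ih.trans fun v hv => mem_nb.2 (Or.inl hv)

theorem ly_subset (i : ℕ) : ly G z i ⊆ bl G z i := by
  cases i with
  | zero => exact subset_rfl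
  | succ i => exact sdiff_subset

theorem ly_unique {i j : ℕ} {v : V} (hi : v ∈ ly G z i) (hj : v ∈ ly G z j) : i = j := by
  have key : ∀ {i j : ℕ}, v ∈ ly G z i → v ∈ ly G z j → ¬ i < j := fun {i j} hi hj h => by
    obtain ⟨j, rfl⟩ : ∃ j', j = j' + 1 := ⟨j - 1, by omega⟩
    exact (mem_sdiff.1 hj).2 (bl_mono (by omega) (ly_subset i hi))
  have h1 := key hi hj
  have h2 := key hj hi
  omega

theorem mem_ly_one {v : V} : v ∈ ly G z 1 ↔ G.Adj z v := by
  simp only [ly, bl, mem_sdiff, mem_nb, mem_singleton, exists_eq_left]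
  constructor
  · rintro ⟨h | h, h'⟩
    · exact absurd h h'
    · exact h
  · exact fun h => ⟨Or.inr h, h.ne'⟩

/-- Adjacent vertices lie in the same or in consecutive spheres. -/
theorem ly_adj {i j : ℕ} {u v : V} (hi : u ∈ ly G z i) (hj : v ∈ ly G z j) (h : G.Adj u v) :
    j ≤ i + 1 := by
  by_contra hc
  obtain ⟨j, rfl⟩ : ∃ j', j = j' + 1 := ⟨j - 1, by omega⟩
  have h1 : v ∈ bl G z (i + 1) := mem_nb.2 (Or.inr ⟨u, ly_subset i hi, h⟩)
  exact (mem_sdiff.1 hj).2 (bl_mono (by omega) h1)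

theorem exists_parent {i : ℕ} {v : V} (h : v ∈ ly G z (i + 1)) : ∃ u ∈ ly G z i, G.Adj v u := by
  obtain ⟨h1, h2⟩ := mem_sdiff.1 h
  obtain h3 | ⟨u, hu, huv⟩ := mem_nb.1 h1
  · exact absurd h3 h2
  refine ⟨u, ?_, huv.symm⟩
  cases i with
  | zero => exact hu
  | succ i => exact mem_sdiff.2 ⟨hu, fun h4 => h2 (mem_nb.2 (Or.inr ⟨u, h4, huv⟩))⟩

theorem card_bl (i : ℕ) : (bl G z i).card = ∑ j ∈ range (i + 1), (ly G z j).card := by
  induction i with
  | zero => simp [bl, ly]
  | succ i ih =>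
    rw [Finset.sum_range_succ, ← ih, add_comm (bl G z i).card]
    exact (card_sdiff_add_card_eq_card (bl_mono (G := G) (z := z) (Nat.le_succ i))).symm

theorem tree_par : ∃ par : V → V, ∀ i, ∀ v ∈ ly G z (i + 1), par v ∈ ly G z i ∧ G.Adj v (par v) := by
  have : ∀ v, ∃ u, ∀ i, v ∈ ly G z (i + 1) → u ∈ ly G z i ∧ G.Adj v u := fun v => by
    by_cases h : ∃ i, v ∈ ly G z (i + 1)
    · obtain ⟨i, hi⟩ := h
      obtain ⟨u, hu, huv⟩ := exists_parent hi
      refine ⟨u, fun j hj => ?_⟩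
      obtain rfl : i = j := by simpa using ly_unique hi hj
      exact ⟨hu, huv⟩
    · exact ⟨v, fun i hi => absurd ⟨i, hi⟩ h⟩
  choose par hpar using this
  exact ⟨par, fun i v hv => hpar v i hv⟩

theorem tree_iter {par : V → V}
    (hpar : ∀ i, ∀ v ∈ ly G z (i + 1), par v ∈ ly G z i ∧ G.Adj v (par v)) (n : ℕ) :
    ∀ i v, v ∈ ly G z (i + n) → par^[n] v ∈ ly G z i := by
  induction n with
  | zero => exact fun i v h => h
  | succ n ih => exact fun i v h => ih i _ (hpar _ v h).1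

theorem tree_path {par : V → V}
    (hpar : ∀ i, ∀ v ∈ ly G z (i + 1), par v ∈ ly G z i ∧ G.Adj v (par v)) (n : ℕ) :
    ∀ i u w, n ≤ i → u ∈ ly G z (i + 1) → w ∈ ly G z (i + 1) → par^[n] u ≠ par^[n] w →
      par^[n + 1] u = par^[n + 1] w → ∃ R : List V, R.length = 2 * n + 1 ∧ R.Nodup ∧
        (∀ v ∈ R, v ∈ bl G z i) ∧ List.IsChain G.Adj (u :: (R ++ [w])) := by
  induction n with
  | zero =>
    intro i u w _ hu hw _ h
    have h' : par u = par w := h
    refine ⟨[par u], rfl, List.nodup_singleton _, fun v hv => ?_, ?_⟩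
    · rw [List.mem_singleton.1 hv]
      exact ly_subset i (hpar i u hu).1
    · simp only [List.cons_append, List.nil_append, List.isChain_cons_cons, List.isChain_singleton,
        and_true]
      exact ⟨(hpar i u hu).2, h' ▸ (hpar i w hw).2.symm⟩
  | succ n ih =>
    intro i u w hn hu hw hne h
    obtain ⟨i, rfl⟩ : ∃ i', i = i' + 1 := ⟨i - 1, by omega⟩
    obtain ⟨hu1, hu2⟩ := hpar _ u hu
    obtain ⟨hw1, hw2⟩ := hpar _ w hw
    obtain ⟨R, h1, h2, h3, h4⟩ := ih i (par u) (par w) (by omega) hu1 hw1 hne h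
    have hne' : par u ≠ par w := fun e => hne (by simp only [Function.iterate_succ_apply, e])
    have hu3 : par u ∉ R := fun h => (mem_sdiff.1 hu1).2 (h3 _ h)
    have hw3 : par w ∉ R := fun h => (mem_sdiff.1 hw1).2 (h3 _ h)
    refine ⟨par u :: (R ++ [par w]), by simp [h1]; omega, ?_, fun v hv => ?_, ?_⟩
    · simp only [List.nodup_cons, List.mem_append, List.mem_singleton, not_or]
      exact ⟨⟨hu3, hne'⟩, List.nodup_append.2 ⟨h2, List.nodup_singleton _, fun a ha b hb e => by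
        rw [List.mem_singleton.1 hb] at e
        exact hw3 (e ▸ ha)⟩⟩
    · simp only [List.mem_cons, List.mem_append, List.not_mem_nil, or_false] at hv
      rcases hv with rfl | hv | rfl
      · exact ly_subset _ hu1
      · exact bl_mono (Nat.le_succ i) (h3 v hv)
      · exact ly_subset _ hw1
    · rw [List.cons_append, List.isChain_cons_cons]
      refine ⟨hu2, ?_⟩
      rw [← List.cons_append, List.isChain_append]
      refine ⟨h4, List.isChain_singleton _, fun x hx y hy => ?_⟩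
      rw [← List.cons_append, List.getLast?_concat] at hx
      simp only [Option.mem_def, Option.some.injEq, List.head?_cons] at hx hy
      rw [← hx, ← hy]
      exact hw2.symm

/-- Choose a parent function `par` (`par v ∈ ly (i' - 1)` adjacent to `v ∈ ly i'`, `i' ≥ 1`; use
`ly_unique`).  Let `j` be least such that `par^[j]` is constant on `C` (`par^[i]` is, and `j ≠ 0`);
`χ = par^[j - 1]`.  The path is `par u, …, par^[j-1] u, par^[j] u = par^[j] w, par^[j-1] w, …, par w`;
`par^[r] u ≠ par^[r] w` for `r ≤ j - 1`. -/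
theorem tree {i : ℕ} {C : Finset V} (hC : C ⊆ ly G z i) (h2 : 2 ≤ C.card) :
    ∃ (j : ℕ) (χ : V → V), 1 ≤ j ∧ j ≤ i ∧ (∃ u ∈ C, ∃ w ∈ C, χ u ≠ χ w) ∧
      (j = 1 → ∀ v, χ v = v) ∧
      ∀ u ∈ C, ∀ w ∈ C, χ u ≠ χ w → Conn G (ly G z i) u w (2 * j - 1) := by
  obtain ⟨par, hpar⟩ := tree_par (G := G) (z := z)
  have hex : ∃ j, ∀ u ∈ C, ∀ w ∈ C, par^[j] u = par^[j] w := ⟨i, fun u hu w hw => by
    have h1 := tree_iter hpar i 0 u (by simpa using hC hu)
    have h2 := tree_iter hpar i 0 w (by simpa using hC hw)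
    rw [mem_singleton.1 h1, mem_singleton.1 h2]⟩
  classical
  have hle : Nat.find hex ≤ i := Nat.find_min' hex fun u hu w hw => by
    have h1 := tree_iter hpar i 0 u (by simpa using hC hu)
    have h2 := tree_iter hpar i 0 w (by simpa using hC hw)
    rw [mem_singleton.1 h1, mem_singleton.1 h2]
  have hspec := Nat.find_spec hex
  have hpos : 0 < Nat.find hex := by
    rw [Nat.find_pos]
    intro h
    have := card_le_one.2 h
    omega
  obtain ⟨n, hn⟩ : ∃ n, Nat.find hex = n + 1 := ⟨Nat.find hex - 1, by omega⟩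
  have hmin := Nat.find_min hex (m := n) (by omega)
  rw [hn] at hspec hle
  push Not at hmin
  obtain ⟨i, rfl⟩ : ∃ i', i = i' + 1 := ⟨i - 1, by omega⟩
  refine ⟨n + 1, par^[n], by omega, hle, hmin, fun h v => ?_, fun u hu w hw h => ?_⟩
  · obtain rfl : n = 0 := by omega
    rfl
  · obtain ⟨R, h1, h2, h3, h4⟩ := tree_path hpar n i u w (by omega) (hC hu) (hC hw) h
      (hspec u hu w hw)
    exact ⟨R, by omega, h2, fun v hv h => (mem_sdiff.1 h).2 (h3 v hv), h4⟩

end Crest.Agent.R054
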