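import Crest.Agent.R054.CDefs
import Crest.Agent.R054.Ball
import Crest.Agent.R054.Two

/-! Row 54: soundness of the weights. -/

set_option autoImplicit false

namespace Crest.Agent.R054

open Finset

theorem cntB_eq (p : ℕ → Bool) (n : ℕ) : cntB p n = #{x ∈ range n | p x = true} := by
  induction n with
  | zero => rfl
  | succ n ih =>
    change cond (p n) (Nat.succ (cntB p n)) (cntB p n) = _
    rw [ih, Finset.range_add_one, Finset.filter_insert]
    cases h : p n
    · simp
    · simp

theorem runB_iff (F : ℕ → ℕ → ℕ → Bool) (z x i : ℕ) :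
    runB F z x i = true ↔ ∀ l, 1 ≤ l → l ≤ i → F z x l = true := by
  induction i with
  | zero => exact ⟨fun _ l h1 h2 => by omega, fun _ => rfl⟩
  | succ i ih =>
    change cond (F z x (i + 1)) (runB F z x i) false = true ↔ _
    constructor
    · intro h l h1 h2
      cases h3 : F z x (i + 1)
      · rw [h3] at h; exact absurd h (by simp)
      · rw [h3] at h
        by_cases hl : l = i + 1
        · rw [hl, h3]
        · exact ih.1 h l h1 (by omega)
    · intro h
      rw [h (i + 1) (by omega) le_rfl]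
      exact ih.2 fun l h1 h2 => h l h1 (by omega)

theorem weight_beq_false {a b : ℕ} (h : a ≠ b) : Nat.beq a b = false := by
  rw [Bool.eq_false_iff]
  intro h'
  exact h (Nat.eq_of_beq_eq_true h')

theorem weight_gr {k t a y : ℕ} (h : gr k t a y = true) : 1 ≤ a ∧ fs k t a + y ≤ k * a := by
  unfold gr at h
  rw [Bool.and_eq_true, Nat.ble_eq, Nat.ble_eq] at h
  exact h

variable {V : Type*} [Fintype V] [DecidableEq V] {G : SimpleGraph V} {k t n : ℕ}
  {F : ℕ → ℕ → ℕ → Bool} {f : ℕ → V}

/-- `OmegaLe.card_le`, `Ctx.two`, `Ctx.ih`. -/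
theorem fs_sound (h : Ctx G k) (hω : OmegaLe G t) (hk : k ≤ 2 * t) {B : Finset V}
    (hB : B ≠ univ) {a : ℕ} (ha : AlphaLe G B a) : B.card ≤ fs k t a := by
  unfold fs
  by_cases h1 : a = 1
  · subst h1
    exact hω.card_le ha
  · rw [weight_beq_false h1]
    by_cases h2 : a = 2 ∧ 5 ≤ k
    · obtain ⟨rfl, h5⟩ := h2
      rw [Nat.ble_eq_true_of_le h5]
      exact h.two h5 hk hω ha
    · have : (Nat.beq a 2 && Nat.ble 5 k) = false := by
        rw [Bool.eq_false_iff]
        intro h'
        rw [Bool.and_eq_true, Nat.beq_eq, Nat.ble_eq] at h'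
        exact h2 h'
      rw [this]
      exact h.ih B a hB ha

theorem weight_nb
    (hF : ∀ x < n, ∀ y < n, ∀ l, F x y l = true → ¬ Conn G ((range n).image f) (f x) (f y) l)
    {z : ℕ} (hz : z < n) (i : ℕ) :
    ∃ Y : Finset V, Y.card ≤ nA n F z i ∧ ∀ J ⊆ ob G ((range n).image f) (f z) i,
      nb G J ⊆ ob G ((range n).image f) (f z) (i + 1) ∪ insert (f z) Y := by
  refine ⟨({x ∈ range n | cond (Nat.beq x z) false (not (runB F z x i)) = true} : Finset ℕ).image f,
    card_image_le.trans (le_of_eq (cntB_eq _ _).symm), fun J hJ => nb_subset_ob hJ ?_⟩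
  intro v hv x' hx' hadj
  obtain ⟨x, hx, rfl⟩ := mem_image.1 hx'
  obtain ⟨l, h1, h2, h3⟩ := conn_of_adj (mem_image_of_mem f (mem_range.2 hz)) (hJ hv) hadj
  by_cases hxz : x = z
  · rw [hxz]; exact mem_insert_self _ _
  · refine mem_insert_of_mem (mem_image_of_mem f (mem_filter.2 ⟨hx, ?_⟩))
    rw [weight_beq_false hxz]
    change (!runB F z x i) = true
    rw [Bool.not_eq_true', Bool.eq_false_iff]
    intro h4
    exact hF z hz x (mem_range.1 hx) l ((runB_iff F z x i).1 h4 l h1 h2) h3

theorem weight_start (h : Ctx G k)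
    (hF : ∀ x < n, ∀ y < n, ∀ l, F x y l = true → ¬ Conn G ((range n).image f) (f x) (f y) l)
    {z : ℕ} (hz : z < n) : k ≤ (ob G ((range n).image f) (f z) 1).card + nD n F z := by
  have h1 := h.ob_one (mem_image_of_mem f (mem_range.2 hz))
    (Y := ({x ∈ range n | cond (Nat.beq x z) false (not (F z x 0)) = true} : Finset ℕ).image f) (by
      intro x' hx' hadj
      obtain ⟨x, hx, rfl⟩ := mem_image.1 hx'
      have hxz : x ≠ z := by
        rintro rfl
        exact G.irrefl hadj
      refine mem_image_of_mem f (mem_filter.2 ⟨hx, ?_⟩)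
      rw [weight_beq_false hxz]
      change (!F z x 0) = true
      rw [Bool.not_eq_true', Bool.eq_false_iff]
      intro h4
      exact hF z hz x (mem_range.1 hx) 0 h4 (conn_zero.2 hadj))
  exact h1.trans (Nat.add_le_add_left (card_image_le.trans (le_of_eq (cntB_eq _ _).symm)) _)

/-- Induction on `i`.  Start: `ob_one` with `Y` the image of the set counted by `nD`
(`conn_zero`); if `ob 1` has `≥ t` elements and no two non-adjacent ones then
`insert (f z) (ob 1)` is a clique with `> t` elements.  Step: `grow` and `nb_subset_ob` with `Y` the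
image of `insert z` of the set counted by `nA` (`conn_of_adj`). -/
theorem W0_sound (h : Ctx G k) (hω : OmegaLe G t) (hk : k ≤ 2 * t)
    (hinj : ∀ i < n, ∀ j < n, f i = f j → i = j)
    (hF : ∀ x < n, ∀ y < n, ∀ l, F x y l = true → ¬ Conn G ((range n).image f) (f x) (f y) l)
    {z : ℕ} (hz : z < n) (i : ℕ) :
    ∃ J ⊆ ob G ((range n).image f) (f z) i, Ind G J ∧ J.card = W0 k t n F z i := by
  have hzX : f z ∈ (range n).image f := mem_image_of_mem f (mem_range.2 hz)
  cases i with
  | zero => exact ⟨∅, empty_subset _, fun u hu => absurd hu (notMem_empty _), rfl⟩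
  | succ i =>
    change ∃ J ⊆ ob G ((range n).image f) (f z) (i + 1), Ind G J ∧ J.card = W0' k t n F z i
    induction i with
    | zero =>
      have h1 := weight_start h hF hz
      change ∃ J ⊆ ob G ((range n).image f) (f z) 1, Ind G J ∧ J.card =
        cond (Nat.ble (nD n F z + t) k) 2 (cond (Nat.ble (nD n F z + 1) k) 1 0)
      cases h2 : Nat.ble (nD n F z + t) k
      · cases h3 : Nat.ble (nD n F z + 1) k
        · exact ⟨∅, empty_subset _, fun u hu => absurd hu (notMem_empty _), rfl⟩
        · rw [Nat.ble_eq] at h3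
          obtain ⟨v, hv⟩ := card_pos.1 (by omega : 0 < (ob G ((range n).image f) (f z) 1).card)
          exact ⟨{v}, singleton_subset_iff.2 hv, ind_singleton v, rfl⟩
      · rw [Nat.ble_eq] at h2
        by_contra hcon
        have h3 : Clq G (insert (f z) (ob G ((range n).image f) (f z) 1)) := by
          intro u hu v hv huv
          rcases mem_insert.1 hu with rfl | hu' <;> rcases mem_insert.1 hv with rfl | hv'
          · exact absurd rfl huv
          · exact ((mem_ob_one hzX).1 hv').2
          · exact ((mem_ob_one hzX).1 hu').2.symm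
          · by_contra hn
            refine hcon ⟨{u, v}, ?_, ?_, card_pair huv⟩
            · intro w hw
              rcases mem_insert.1 hw with rfl | hw
              · exact hu'
              · rw [mem_singleton.1 hw]; exact hv'
            · intro a ha b hb
              simp only [mem_insert, mem_singleton] at ha hb
              rcases ha with rfl | rfl <;> rcases hb with rfl | rfl
              · exact G.irrefl
              · exact hn
              · exact fun h' => hn h'.symm
              · exact G.irrefl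
        have h4 := hω _ h3
        rw [card_insert_of_notMem fun h' => ob_notMem h' hzX] at h4
        omega
    | succ j ih =>
      obtain ⟨J, hJ, hI, hc⟩ := ih
      change ∃ J ⊆ ob G ((range n).image f) (f z) (j + 1 + 1), Ind G J ∧ J.card =
        cond (gr k t (W0' k t n F z j) (nA n F z (j + 1) + 1)) (W0' k t n F z j + 1)
          (W0' k t n F z j)
      cases h2 : gr k t (W0' k t n F z j) (nA n F z (j + 1) + 1)
      · exact ⟨J, hJ.trans (ob_mono (Nat.le_succ _)), hI, hc⟩
      · obtain ⟨h3, h4⟩ := weight_gr h2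
        obtain ⟨Y, hY, hN⟩ := weight_nb hF hz (j + 1)
        rw [← hc] at h3 h4 ⊢
        refine h.grow (card_pos.1 h3) hI (hN J hJ) (fun ha => fs_sound h hω hk ?_ ha) ?_
        · intro h'
          exact ob_notMem (h' ▸ mem_univ (f z)) hzX
        · have := card_insert_le (f z) Y
          omega

/-- `grow` with `B = insert (f z) (ob (i + 1))`, which misses another vertex of `X`. -/
theorem W1_sound (h : Ctx G k) (hω : OmegaLe G t) (hk : k ≤ 2 * t) (hn : 2 ≤ n)
    (hinj : ∀ i < n, ∀ j < n, f i = f j → i = j)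
    (hF : ∀ x < n, ∀ y < n, ∀ l, F x y l = true → ¬ Conn G ((range n).image f) (f x) (f y) l)
    {z : ℕ} (hz : z < n) (i : ℕ) :
    ∃ J ⊆ insert (f z) (ob G ((range n).image f) (f z) i), Ind G J ∧
      J.card = W1 k t n F z i := by
  have hzX : f z ∈ (range n).image f := mem_image_of_mem f (mem_range.2 hz)
  have hone : ∀ i, ∃ J ⊆ insert (f z) (ob G ((range n).image f) (f z) i), Ind G J ∧ J.card = 1 :=
    fun i => ⟨{f z}, singleton_subset_iff.2 (mem_insert_self _ _), ind_singleton _, rfl⟩
  cases i with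
  | zero => exact hone 0
  | succ j =>
    change ∃ J ⊆ insert (f z) (ob G ((range n).image f) (f z) (j + 1)), Ind G J ∧ J.card =
      cond (gr k t (W0 k t n F z j) (nA n F z j)) (W0 k t n F z j + 1) 1
    cases h2 : gr k t (W0 k t n F z j) (nA n F z j)
    · exact hone _
    · obtain ⟨h3, h4⟩ := weight_gr h2
      obtain ⟨J, hJ, hI, hc⟩ := W0_sound h hω hk hinj hF hz j
      obtain ⟨Y, hY, hN⟩ := weight_nb hF hz j
      rw [← hc] at h3 h4 ⊢
      refine h.grow (Y := Y) (card_pos.1 h3) hI (fun v hv => ?_)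
        (fun ha => fs_sound h hω hk ?_ ha) (by omega)
      · have := hN J hJ hv
        simp only [mem_union, mem_insert] at this ⊢
        tauto
      · intro h'
        obtain ⟨x, hx, hxz⟩ : ∃ x, x < n ∧ x ≠ z := by
          by_cases h0 : z = 0
          · exact ⟨1, by omega, by omega⟩
          · exact ⟨0, by omega, fun h'' => h0 h''.symm⟩
        rcases mem_insert.1 (h' ▸ mem_univ (f x)) with h5 | h5
        · exact hxz (hinj x hx z hz h5)
        · exact ob_notMem h5 (mem_image_of_mem f (mem_range.2 hx))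

theorem weight_selOK {sel : List (ℕ × ℕ × Bool)} (hs : selOK n F sel = true) :
    (∀ c ∈ sel, c.1 < n) ∧ sel.Pairwise fun c c' => compat F c c' = true := by
  induction sel with
  | nil => simp
  | cons c l ih =>
    change (Nat.ble (c.1 + 1) n && l.all (compat F c) && selOK n F l) = true at hs
    rw [Bool.and_eq_true, Bool.and_eq_true, Nat.ble_eq, List.all_eq_true] at hs
    obtain ⟨h1, h2⟩ := ih hs.2
    refine ⟨fun c' hc' => ?_, List.Pairwise.cons hs.1.2 h2⟩
    rcases List.mem_cons.1 hc' with rfl | hc'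
    · exact hs.1.1
    · exact h1 c' hc'

theorem weight_selW (sel : List (ℕ × ℕ × Bool)) :
    selW k t n F sel = (sel.map (Wt k t n F)).sum := by
  induction sel with
  | nil => rfl
  | cons c l ih =>
    change Wt k t n F c + selW k t n F l = _
    rw [ih, List.map_cons, List.sum_cons]

/-- `selOK` gives `sel.Pairwise compat` (so `sel.Nodup`); `Ctx.balls` with index set
`sel.toFinset` (`Conn.symm` for the other order; an unflagged centre is not in its set `J`). -/
theorem sel_sound (h : Ctx G k) (hω : OmegaLe G t) (hk : k ≤ 2 * t) (hn : 2 ≤ n)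
    (hinj : ∀ i < n, ∀ j < n, f i = f j → i = j)
    (hF : ∀ x < n, ∀ y < n, ∀ l, F x y l = true → ¬ Conn G ((range n).image f) (f x) (f y) l)
    {sel : List (ℕ × ℕ × Bool)} (hs : selOK n F sel = true) : selW k t n F sel ≤ k := by
  obtain ⟨h1, h2⟩ := weight_selOK hs
  let R : ℕ × ℕ × Bool → ℕ × ℕ × Bool → Prop := fun c c' => c.1 ≠ c'.1 ∧
    (∀ l, 1 ≤ l → l ≤ c.2.1 + c'.2.1 → ¬ Conn G ((range n).image f) (f c.1) (f c'.1) l) ∧
    (c.2.2 = true → c'.2.2 = true → ¬ G.Adj (f c.1) (f c'.1))
  have h3 : sel.Pairwise R := by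
    refine h2.imp_of_mem fun {c c'} hc hc' hcc => ?_
    unfold compat at hcc
    simp only [Bool.and_eq_true, Bool.or_eq_true, Bool.not_eq_true', runB_iff] at hcc
    obtain ⟨⟨k1, k2⟩, k3⟩ := hcc
    refine ⟨fun h' => ?_, fun l l1 l2 => hF _ (h1 c hc) _ (h1 c' hc') l (k2 l l1 l2),
      fun b1 b2 hadj => ?_⟩
    · rw [h', Nat.beq_refl] at k1
      exact absurd k1 (by simp)
    · rcases k3 with k3 | k3
      · rw [b1, b2] at k3
        exact absurd k3 (by simp)
      · exact hF _ (h1 c hc) _ (h1 c' hc') 0 k3 (conn_zero.2 hadj)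
  have hsymm : ∀ c c', R c c' → R c' c := fun c c' ⟨k1, k2, k3⟩ =>
    ⟨k1.symm, fun l l1 l2 h' => k2 l l1 (by omega) h'.symm, fun b1 b2 h' => k3 b2 b1 h'.symm⟩
  have h4 : ∀ c ∈ sel, ∀ c' ∈ sel, c ≠ c' → R c c' := by
    have : Std.Symm R := ⟨hsymm⟩
    intro c hc c' hc' hne
    exact h3.forall hc hc' hne
  have hnd : sel.Nodup := h3.imp fun {c c'} hR h' => hR.1 (congrArg Prod.fst h')
  have h5 : ∀ c : ℕ × ℕ × Bool, ∃ J : Finset V, c.1 < n →
      J ⊆ insert (f c.1) (ob G ((range n).image f) (f c.1) c.2.1) ∧ Ind G J ∧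
        J.card = Wt k t n F c ∧ (f c.1 ∈ J → c.2.2 = true) := by
    rintro ⟨z, i, b⟩
    by_cases hz : z < n
    swap
    · exact ⟨∅, fun h' => absurd h' hz⟩
    cases b
    · obtain ⟨J, k1, k2, k3⟩ := W0_sound h hω hk hinj hF hz i
      exact ⟨J, fun _ => ⟨k1.trans (subset_insert _ _), k2, k3, fun h' =>
        absurd (mem_image_of_mem f (mem_range.2 hz)) (ob_notMem (k1 h'))⟩⟩
    · obtain ⟨J, k1, k2, k3⟩ := W1_sound h hω hk hn hinj hF hz i
      exact ⟨J, fun _ => ⟨k1, k2, k3, fun _ => rfl⟩⟩
  choose J hJ using h5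
  have hm : ∀ c ∈ sel.toFinset, c ∈ sel := fun c hc => List.mem_toFinset.1 hc
  have key := h.balls (X := (range n).image f) sel.toFinset (fun c => f c.1) (fun c => c.2.1) J
    (fun c hc => mem_image_of_mem f (mem_range.2 (h1 c (hm c hc))))
    (fun c hc => (hJ c (h1 c (hm c hc))).2.1) (fun c hc => (hJ c (h1 c (hm c hc))).1)
    (fun c hc c' hc' hne => (h4 c (hm c hc) c' (hm c' hc') hne).2.1)
    (fun c hc c' hc' hne k1 k2 => ⟨fun h' => (h4 c (hm c hc) c' (hm c' hc') hne).1
      (hinj _ (h1 c (hm c hc)) _ (h1 c' (hm c' hc')) h'),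
      (h4 c (hm c hc) c' (hm c' hc') hne).2.2 ((hJ c (h1 c (hm c hc))).2.2.2 k1)
        ((hJ c' (h1 c' (hm c' hc'))).2.2.2 k2)⟩)
  rw [weight_selW, ← List.sum_toFinset _ hnd]
  refine le_of_eq_of_le (Finset.sum_congr rfl fun c hc => ?_) key
  exact (hJ c (h1 c (hm c hc))).2.2.1.symm

end Crest.Agent.R054
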